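import Crest.Agent.R317.Lib
import Crest.Prelude.Def_Tables

/-!
Row 309: streaming randomized samplers (time-inhomogeneous Markov chains driven by chunks of fair
bits) and the interface from which the two sampling statements follow.
-/

set_option autoImplicit false

namespace Crest.Agent.R309X

open Crest.Agent.PT Crest.Agent.QC Crest.Agent.R317 Crest.Tables

/-- A streaming randomized algorithm: on input `a` it makes `T a` steps, step number `t` reads a
fresh uniform number `u < 2 ^ c a`. -/
structure Stream (α β : Type) [Enc α] [Enc β] where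
  /-- initial state -/
  init : α → β
  /-- `step a t s u`: input, time, state, random chunk -/
  step : α → ℕ → β → ℕ → β
  /-- number of steps -/
  T : α → ℕ
  /-- bits per chunk -/
  c : α → ℕ
  /-- output read off the final state -/
  out : α → β → List Bin
  pt_init : PT init
  pt_step : PT (fun p : α × ℕ × β × Bin => step p.1 p.2.1 p.2.2.1 p.2.2.2.val)
  pt_T : PT T
  pt_c : PT c
  pt_out : PT (fun p : α × β => out p.1 p.2)

namespace Stream

variable {α β : Type} [Enc α] [Enc β] (A : Stream α β)

/-- Expectation of `F` at the state after `t` steps. -/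
noncomputable def E (a : α) : ℕ → (β → ℝ) → ℝ
  | 0, F => F (A.init a)
  | t + 1, F => E a t fun s => (∑ u ∈ Finset.range (2 ^ A.c a), F (A.step a t s u)) / 2 ^ A.c a

/-- States that can occur after `t` steps. -/
inductive Reach (a : α) : ℕ → β → Prop
  | init : Reach a 0 (A.init a)
  | step {t : ℕ} {s : β} {u : ℕ} : Reach a t s → u < 2 ^ A.c a → Reach a (t + 1) (A.step a t s u)

end Stream

/-- Inputs: row sums, column sums (binary) and the accuracy parameter (unary). -/
abbrev In : Type := (List Bin × List Bin) × ℕ

/-- The margins as a pair of lists. -/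
def margins {m n : ℕ} (rs : Fin m → ℕ) (cs : Fin n → ℕ) : List Bin × List Bin :=
  (List.ofFn fun i => (⟨rs i⟩ : Bin), List.ofFn fun j => (⟨cs j⟩ : Bin))

/-- A matrix written row by row. -/
def flat {m n : ℕ} (X : Fin m → Fin n → ℕ) : List Bin :=
  ((List.ofFn fun i => List.ofFn (X i)).flatten).map Bin.mk

open Classical in
/-- The interface: small chunks and small states (polynomial in the margins and in `log k`), the
output is always a table, and each table has probability within `2 ^ (-k)` of uniform. -/
def GoodSampler {β : Type} [Enc β] (A : Stream In β) (D : ℕ) : Prop :=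
  ∀ (m n : ℕ) (rs : Fin m → ℕ) (cs : Fin n → ℕ) (k : ℕ), 1 ≤ k → ∑ i, rs i = ∑ j, cs j →
    A.c (margins rs cs, k) ≤ (sz (margins rs cs) + Nat.log 2 k + 2) ^ D ∧
    (∀ t s, t ≤ A.T (margins rs cs, k) → A.Reach (margins rs cs, k) t s →
      sz s ≤ (sz (margins rs cs) + Nat.log 2 k + 2) ^ D) ∧
    (∀ s, A.Reach (margins rs cs, k) (A.T (margins rs cs, k)) s →
      ∃ X : Fin m → Fin n → ℕ, IsTable rs cs X ∧ A.out (margins rs cs, k) s = flat X) ∧
    ∀ X : Fin m → Fin n → ℕ, IsTable rs cs X →
      |A.E (margins rs cs, k) (A.T (margins rs cs, k))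
          (fun s => if A.out (margins rs cs, k) s = flat X then 1 else 0) -
        1 / (numBoundedTables rs cs (fun _ _ => ∑ i, rs i) : ℝ)| ≤ (2 : ℝ)⁻¹ ^ k

theorem defs_anchor : True := by
  have := @Stream.E.eq_def; have := @Stream.E.eq_1; have := @Stream.E.eq_2
  have := @margins.eq_1; have := @margins.eq_def; have := @flat.eq_1; have := @flat.eq_def
  have := @GoodSampler.eq_1; have := @GoodSampler.eq_def
  trivial

end Crest.Agent.R309X
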