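import Crest.Agent.R309X.Defs
import Crest.Agent.R309.DefsB
import Crest.Agent.R300U.GPTQ

/-!
Row 309: the interface from which the counting statement follows.
-/

set_option autoImplicit false

namespace Crest.Agent.R309X

open Crest.Agent.PT Crest.Agent.QC Crest.Agent.R317 Crest.Agent.R300U Crest.Tables

/-- Inputs of the counter: margins, cell bounds row by row, accuracy (unary). -/
abbrev In79 : Type := (List Bin × List Bin) × List Bin × ℕ

/-- The interface: `f (x, u)` for a uniform `c x`-bit number `u` approximates the number of bounded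
tables within `1 ± 1/a` with probability at least `1 - 2 ^ (-a)`. -/
def GoodCounter (c : In79 → ℕ) (f : In79 × Bin → ℚ) : Prop :=
  ∀ (m n : ℕ) (rs : Fin m → ℕ) (cs : Fin n → ℕ) (b : Fin m → Fin n → ℕ) (a : ℕ), 1 ≤ a →
    (∀ u < 2 ^ c (margins rs cs, flat b, a), 0 ≤ f ((margins rs cs, flat b, a), ⟨u⟩)) ∧
    (numBoundedTables rs cs b = 0 →
      ∀ u < 2 ^ c (margins rs cs, flat b, a), f ((margins rs cs, flat b, a), ⟨u⟩) = 0) ∧
    1 - (2 : ℝ)⁻¹ ^ a ≤ R309.Pb (c (margins rs cs, flat b, a)) fun u =>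
      (1 - 1 / (a : ℝ)) * numBoundedTables rs cs b ≤ (f ((margins rs cs, flat b, a), ⟨u⟩) : ℝ) ∧
      (f ((margins rs cs, flat b, a), ⟨u⟩) : ℝ) ≤ (1 + 1 / (a : ℝ)) * numBoundedTables rs cs b

theorem cntDefs_anchor : True := by
  have := @GoodCounter.eq_1; have := @GoodCounter.eq_def
  trivial

end Crest.Agent.R309X
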