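import Crest.Agent.R309X.Defs
import Crest.Prelude.Def_FinProb

/-!
Row 309: expectations over lists of fair bits.
-/

set_option autoImplicit false

namespace Crest.Agent.R309X

open Crest.Agent.PT Finset

/-- Expectation over a uniform list of `t` bits. -/
noncomputable def EL : ℕ → (List Bool → ℝ) → ℝ
  | 0, F => F []
  | t + 1, F => (EL t (fun l => F (false :: l)) + EL t (fun l => F (true :: l))) / 2

theorem EL_anchor : True := by
  have := @EL.eq_def; have := @EL.eq_1; have := @EL.eq_2
  have := @Stream.E.eq_def; have := @Stream.E.eq_1; have := @Stream.E.eq_2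
  trivial

theorem EL_zero (F : List Bool → ℝ) : EL 0 F = F [] := rfl

theorem EL_succ (t : ℕ) (F : List Bool → ℝ) :
    EL (t + 1) F = (EL t (fun l => F (false :: l)) + EL t (fun l => F (true :: l))) / 2 := rfl

theorem EL_mono {t : ℕ} {F G : List Bool → ℝ} (h : ∀ l, l.length = t → F l ≤ G l) :
    EL t F ≤ EL t G := by
  induction t generalizing F G with
  | zero => exact h [] rfl
  | succ t ih =>
    rw [EL_succ, EL_succ]
    have h1 := ih (F := fun l => F (false :: l)) (G := fun l => G (false :: l))
      (fun l hl => h _ (by simp [hl]))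
    have h2 := ih (F := fun l => F (true :: l)) (G := fun l => G (true :: l))
      (fun l hl => h _ (by simp [hl]))
    linarith

theorem EL_congr {t : ℕ} {F G : List Bool → ℝ} (h : ∀ l, l.length = t → F l = G l) :
    EL t F = EL t G :=
  le_antisymm (EL_mono fun l hl => (h l hl).le) (EL_mono fun l hl => (h l hl).ge)

theorem EL_const (t : ℕ) (c : ℝ) : EL t (fun _ => c) = c := by
  induction t with
  | zero => rfl
  | succ t ih => rw [EL_succ, ih]; ring

theorem EL_add (t : ℕ) (F G : List Bool → ℝ) : EL t (fun l => F l + G l) = EL t F + EL t G := by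
  induction t generalizing F G with
  | zero => rfl
  | succ t ih => rw [EL_succ, EL_succ, EL_succ, ih, ih]; ring

theorem EL_mul (t : ℕ) (c : ℝ) (F : List Bool → ℝ) : EL t (fun l => c * F l) = c * EL t F := by
  induction t generalizing F with
  | zero => rfl
  | succ t ih => rw [EL_succ, EL_succ, ih, ih]; ring

theorem EL_sub (t : ℕ) (F G : List Bool → ℝ) : EL t (fun l => F l - G l) = EL t F - EL t G := by
  induction t generalizing F G with
  | zero => rfl
  | succ t ih => rw [EL_succ, EL_succ, EL_succ, ih, ih]; ring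

theorem EL_sum {ι : Type} (s : Finset ι) (t : ℕ) (F : ι → List Bool → ℝ) :
    EL t (fun l => ∑ i ∈ s, F i l) = ∑ i ∈ s, EL t (F i) := by
  classical
  induction s using Finset.induction_on with
  | empty => simpa using EL_const t 0
  | insert i s hi ih => simp only [Finset.sum_insert hi]; rw [EL_add, ih]

theorem EL_nonneg {t : ℕ} {F : List Bool → ℝ} (h : ∀ l, l.length = t → 0 ≤ F l) : 0 ≤ EL t F := by
  have := EL_mono (F := fun _ => 0) h
  rwa [EL_const] at this

theorem EL_le {t : ℕ} {F : List Bool → ℝ} {c : ℝ} (h : ∀ l, l.length = t → F l ≤ c) :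
    EL t F ≤ c := by
  have := EL_mono (G := fun _ => c) h
  rwa [EL_const] at this

theorem EL_append (r t : ℕ) (F : List Bool → ℝ) :
    EL (t + r) F = EL t (fun l => EL r (fun l' => F (l ++ l'))) := by
  induction t generalizing F with
  | zero => simp [EL_zero]
  | succ t ih =>
    rw [show t + 1 + r = (t + r) + 1 by ring, EL_succ, EL_succ, ih, ih]
    rfl

/-- Uniform tables over a balanced alphabet give uniform bit lists. -/
theorem EL_eq_sum {Ω : Type} [Fintype Ω] (β : Ω → Bool)
    (hβ : ∀ f : Bool → ℝ, ∑ v, f (β v) = Fintype.card Ω * ((f false + f true) / 2))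
    (t : ℕ) (F : List Bool → ℝ) :
    ∑ tab : Fin t → Ω, F (List.ofFn fun i => β (tab i)) = (Fintype.card Ω : ℝ) ^ t * EL t F := by
  induction t generalizing F with
  | zero => simp [EL_zero]
  | succ t ih =>
    rw [← (Fin.consEquiv fun _ : Fin (t + 1) => Ω).sum_comp, Fintype.sum_prod_type]
    have : ∀ v : Ω, ∑ tab : Fin t → Ω,
        F (List.ofFn fun i => β ((Fin.consEquiv fun _ : Fin (t + 1) => Ω) (v, tab) i)) =
        (Fintype.card Ω : ℝ) ^ t * EL t (fun l => F (β v :: l)) := by
      intro v
      rw [← ih]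
      refine Finset.sum_congr rfl fun tab _ => ?_
      simp [Fin.consEquiv, List.ofFn_succ]
    simp only [this]
    rw [← Finset.mul_sum, hβ (fun b => EL t (fun l => F (b :: l))), EL_succ]
    ring

open Classical in
theorem uniformProb_eq_EL {Ω : Type} [Fintype Ω] [Nonempty Ω] (β : Ω → Bool)
    (hβ : ∀ f : Bool → ℝ, ∑ v, f (β v) = Fintype.card Ω * ((f false + f true) / 2))
    (t : ℕ) (Q : List Bool → Prop) :
    Crest.FinProb.uniformProb {tab : Fin t → Ω | Q (List.ofFn fun i => β (tab i))} =
      EL t (fun l => if Q l then 1 else 0) := by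
  have h := EL_eq_sum β hβ t (fun l => if Q l then 1 else 0)
  have hpos : (0 : ℝ) < (Fintype.card Ω : ℝ) ^ t := by
    have := Fintype.card_pos (α := Ω)
    positivity
  unfold Crest.FinProb.uniformProb
  rw [Fintype.card_fun, Fintype.card_fin, Nat.cast_pow, div_eq_iff hpos.ne', mul_comm, ← h,
    Finset.sum_boole]
  congr

theorem balanced_bool (f : Bool → ℝ) :
    ∑ v : Bool, f (id v) = Fintype.card Bool * ((f false + f true) / 2) := by
  simp; ring

theorem sum_range_two_mul (M : ℕ) (G : ℕ → ℝ) :
    ∑ U ∈ range (2 * M), G U = ∑ U ∈ range M, (G (2 * U) + G (2 * U + 1)) := by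
  induction M with
  | zero => simp
  | succ M ih => rw [show 2 * (M + 1) = 2 * M + 1 + 1 by ring, sum_range_succ, sum_range_succ, ih,
      sum_range_succ]; ring

theorem balanced_word {w : ℕ} (hw : 1 ≤ w) (f : Bool → ℝ) :
    ∑ v : Fin (2 ^ w), f (decide ((v : ℕ) % 2 = 1)) =
      Fintype.card (Fin (2 ^ w)) * ((f false + f true) / 2) := by
  obtain ⟨w, rfl⟩ : ∃ w', w = w' + 1 := ⟨w - 1, by omega⟩
  rw [Fin.sum_univ_eq_sum_range (fun v => f (decide (v % 2 = 1))), pow_succ', sum_range_two_mul]
  have h1 : ∀ U : ℕ, decide (2 * U % 2 = 1) = false := fun U => by simp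
  have h2 : ∀ U : ℕ, decide ((2 * U + 1) % 2 = 1) = true := fun U => by simp [Nat.add_mod]
  simp only [h1, h2]
  simp
  ring

theorem sum_range_add_mul (M K : ℕ) (G : ℕ → ℝ) :
    ∑ U ∈ range (M * K), G U = ∑ U ∈ range M, ∑ u ∈ range K, G (U + M * u) := by
  induction K with
  | zero => simp
  | succ K ih =>
    rw [Nat.mul_succ, sum_range_add, ih, ← sum_add_distrib]
    refine sum_congr rfl fun U _ => ?_
    rw [sum_range_succ, add_comm (M * K)]

/-- The value of a uniform bit list is a uniform number. -/
theorem EL_valR (t : ℕ) (G : ℕ → ℝ) :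
    EL t (fun l => G (valR l)) = (∑ U ∈ range (2 ^ t), G U) / 2 ^ t := by
  induction t generalizing G with
  | zero => simp [EL_zero, valR]
  | succ t ih =>
    have h1 : EL t (fun l => G (valR (false :: l))) = (∑ U ∈ range (2 ^ t), G U) / 2 ^ t := by
      rw [← ih]
      refine EL_congr fun l hl => ?_
      rw [valR_cons]; simp
    have h2 : EL t (fun l => G (valR (true :: l))) =
        (∑ U ∈ range (2 ^ t), G (U + 2 ^ t)) / 2 ^ t := by
      rw [← ih (fun U => G (U + 2 ^ t))]
      refine EL_congr fun l hl => ?_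
      rw [valR_cons, hl]; simp [add_comm]
    rw [EL_succ, h1, h2, pow_succ 2 t, sum_range_add_mul]
    simp only [sum_range_succ, range_zero, sum_empty, sum_add_distrib]
    simp
    field_simp
    ring

end Crest.Agent.R309X
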