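import Crest.Agent.R309X.CntDefs
import Crest.Agent.R309X.EL
import Crest.Agent.R309.AV
import Crest.Agent.PT.Pair
import Crest.Prelude.Def_Randomized

/-!
Row 309: from a counter on parsed inputs to the randomized approximation scheme on bit strings.
-/

set_option autoImplicit false

namespace Crest.Agent.R309X

open Crest.Agent.PT Crest.Agent.QC Crest.Agent.R317 Crest.Agent.R300U Crest.Tables
open Crest.Enc Crest.FinProb Crest.Randomized

/-- The code of a rational number. -/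
def ratR (q : ℚ) : Raw := ⟨ratCode q⟩

@[fun_prop] theorem pt_ratR {α : Type} [Enc α] {f : α → ℚ} (hf : PT f) :
    PT (fun a => ratR (f a)) :=
  (PT.cons (pt_qnum hf).intLtZero (PT.app (pt_qnum hf).absCode
    (PT.binCode (f := fun a => (⟨(f a).den⟩ : Bin)) (bt_qden hf)))).congr (fun a => by
      simp [ratR, ratCode, Raw.cons, Raw.app, absCodeR, Bin.code])

/-- A generic wrapper: parse the input, read a number off the tape, output a rational. -/
theorem fpras_wrap {α : Type} [Enc α] (parse : Raw → α) (hp : PT parse) (c : α → ℕ)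
    (f : α × Bin → ℚ) (hc : PT c) (hf : PT f) :
    ∃ (A : List Bool × List Bool → List Bool) (r : Polynomial ℕ), RandPolyTime A ∧
      ∀ (x : List Bool) (N : ℕ) (ε δ : ℚ) (a : ℕ), 0 < ε → ε⁻¹ ≤ a → (2 : ℝ)⁻¹ ^ a ≤ δ →
        (∀ u < 2 ^ c (parse ⟨x⟩), 0 ≤ f (parse ⟨x⟩, ⟨u⟩)) →
        (N = 0 → ∀ u < 2 ^ c (parse ⟨x⟩), f (parse ⟨x⟩, ⟨u⟩) = 0) →
        (1 - (2 : ℝ)⁻¹ ^ a ≤ R309.Pb (c (parse ⟨x⟩)) fun u =>
          (1 - 1 / (a : ℝ)) * N ≤ (f (parse ⟨x⟩, ⟨u⟩) : ℝ) ∧
          (f (parse ⟨x⟩, ⟨u⟩) : ℝ) ≤ (1 + 1 / (a : ℝ)) * N) →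
        (∀ ω : Fin (r.eval x.length) → Bool, ∃ z : ℚ, 0 ≤ z ∧ A (x, List.ofFn ω) = ratCode z) ∧
        (N = 0 → ∀ ω : Fin (r.eval x.length) → Bool, A (x, List.ofFn ω) = ratCode 0) ∧
        1 - (δ : ℝ) ≤ uniformProb {ω : Fin (r.eval x.length) → Bool |
          ∃ z : ℚ, A (x, List.ofFn ω) = ratCode z ∧ (1 - ε) * N ≤ z ∧ z ≤ (1 + ε) * N} := by
  classical
  obtain ⟨k, hk⟩ := (hc.comp hp).pbNat
  have hu : BT (fun q : Raw × Raw => valR q.2.val % 2 ^ c (parse q.1)) := by
    have h1 : BT (fun q : Raw × Raw => valR q.2.val) := PT.ofRev (by fun_prop)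
    have h2 : PT (fun q : Raw × Raw => c (parse q.1)) := (hc.comp hp).comp (by fun_prop)
    exact h1.mod ((BT.const 2).pow h2)
  have hF : PT (fun q : Raw × Raw => ratR (f (parse q.1, ⟨valR q.2.val % 2 ^ c (parse q.1)⟩))) :=
    pt_ratR (hf.comp (PT.pair (hp.comp (by fun_prop)) hu))
  refine ⟨fun q => ratCode (f (parse ⟨q.1⟩, ⟨valR q.2 % 2 ^ c (parse ⟨q.1⟩)⟩)),
    (Polynomial.X + 2) ^ k, hF.toPair _ _ (fun _ => rfl), fun x N ε δ a hε ha hδ h1 h2 h3 => ?_⟩
  have hlt : ∀ v, v % 2 ^ c (parse ⟨x⟩) < 2 ^ c (parse ⟨x⟩) := fun v => Nat.mod_lt _ (by positivity)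
  refine ⟨fun ω => ⟨_, h1 _ (hlt _), rfl⟩, fun hN ω => by simp only [h2 hN _ (hlt _)], ?_⟩
  set t := ((Polynomial.X + 2 : Polynomial ℕ) ^ k).eval x.length with ht
  have hct : c (parse ⟨x⟩) ≤ t := by
    have := hk ⟨x⟩
    simpa [ht] using this
  set Q : ℕ → Prop := fun u => ∃ z : ℚ, ratCode (f (parse ⟨x⟩, ⟨u⟩)) = ratCode z ∧
    (1 - ε) * N ≤ z ∧ z ≤ (1 + ε) * N with hQ
  have e1 := uniformProb_eq_EL (Ω := Bool) id balanced_bool t
    (fun l => Q (valR l % 2 ^ c (parse ⟨x⟩)))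
  have e2 := EL_valR t (fun u => if Q (u % 2 ^ c (parse ⟨x⟩)) then 1 else 0)
  have e3 := R309.Pb_mod hct Q
  have e4 : uniformProb {ω : Fin t → Bool | Q (valR (List.ofFn ω) % 2 ^ c (parse ⟨x⟩))} =
      R309.Pb (c (parse ⟨x⟩)) Q := by
    rw [← e3]
    refine e1.trans (e2.trans ?_)
    unfold R309.Pb R309.Av
    congr
  refine le_trans ?_ e4.ge
  refine le_trans (by linarith) (h3.trans (R309.Pb_mono fun u _ hu => ⟨_, rfl, ?_⟩))
  have ha0 : (0 : ℚ) < a := (inv_pos.2 hε).trans_le ha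
  have hae : (1 : ℚ) / a ≤ ε := by
    rw [one_div]; exact (inv_le_comm₀ ha0 hε).2 ha
  have hae' : (1 : ℝ) / a ≤ ε := by
    have := (Rat.cast_le (K := ℝ)).2 hae
    push_cast at this
    exact this
  have hN : (0 : ℝ) ≤ N := by positivity
  constructor
  · have : ((1 : ℝ) - ε) * N ≤ f (parse ⟨x⟩, ⟨u⟩) :=
      (mul_le_mul_of_nonneg_right (by linarith) hN).trans hu.1
    exact_mod_cast this
  · have : (f (parse ⟨x⟩, ⟨u⟩) : ℝ) ≤ ((1 : ℝ) + ε) * N :=
      hu.2.trans (mul_le_mul_of_nonneg_right (by linarith) hN)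
    exact_mod_cast this

/-- The `k`-th natural-number token. -/
def tok (x : Raw) (k : ℕ) : ℕ := rdNat (skip^[k] x)

@[fun_prop] theorem pt_skips {α : Type} [Enc α] {x : α → Raw} {k : α → ℕ} (hx : PT x) (hk : PT k) :
    PT (fun a => skip^[k a] (x a)) := pt_iterShrink (pt_skip PT.id') length_skip hk hx

@[fun_prop] theorem bt_tok {α : Type} [Enc α] {x : α → Raw} {k : α → ℕ} (hx : PT x) (hk : PT k) :
    BT (fun a => tok (x a) (k a)) := bt_rdNat (pt_skips hx hk)

theorem tok_code (l : List ℕ) (y : List Bool) (k : ℕ) (hk : k < l.length) :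
    tok ⟨(l.map natCode).flatten ++ y⟩ k = l[k] := by
  rw [tok, iter_skip skip natCode skip_code l y k hk.le, List.drop_eq_getElem_cons hk,
    List.map_cons, List.flatten_cons, List.append_assoc, rdNat_code]

theorem toks_code (p l s : List ℕ) (y : List Bool) :
    mkL l.length (fun i => (⟨tok ⟨((p ++ l ++ s).map natCode).flatten ++ y⟩ (p.length + i)⟩ : Bin)) =
      l.map Bin.mk := by
  apply List.ext_getElem
  · simp
  · intro i h1 h2
    have hi : i < l.length := by simpa using h2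
    simp only [mkL, List.getElem_map, List.getElem_range]
    rw [tok_code _ _ _ (by simp; omega)]
    congr 1
    rw [List.getElem_append_left (by simp; omega), List.getElem_append_right (by omega)]
    simp

theorem length_le_codes (l : List ℕ) : l.length ≤ (l.map natCode).flatten.length := by
  induction l with
  | nil => simp
  | cons a l ih =>
    simp only [List.map_cons, List.flatten_cons, List.length_append, List.length_cons,
      length_natCode] at ih ⊢
    omega

/-- The accuracy parameter read from the codes of `ε`, `δ` and the unary block. -/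
def accOf (y : Raw) : ℕ :=
  sz (skip (skip (skip (skip y.tail)).tail)) + (rdNat (skip (skip (skip y.tail)).tail)).size

@[fun_prop] theorem pt_accOf {α : Type} [Enc α] {y : α → Raw} (hy : PT y) :
    PT (fun a => accOf (y a)) := by unfold accOf; fun_prop

theorem accOf_code (ε δ : ℚ) (u : ℕ) :
    accOf ⟨ratCode ε ++ (ratCode δ ++ List.replicate u true)⟩ = u + δ.den.size := by
  have e : ∀ (q : ℚ) (y : List Bool), (⟨ratCode q ++ y⟩ : Raw).tail =
      ⟨natCode q.num.natAbs ++ (natCode q.den ++ y)⟩ := fun q y => by simp [Raw.tail, ratCode]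
  simp only [accOf, e, skip_code, rdNat_code, sz_raw, List.length_replicate]

theorem acc_spec (ε : ℚ) {δ : ℚ} (hδ : 0 < δ) :
    1 ≤ ⌈ε⁻¹⌉₊ + δ.den.size ∧ ε⁻¹ ≤ (⌈ε⁻¹⌉₊ + δ.den.size : ℕ) ∧
      (2 : ℝ)⁻¹ ^ (⌈ε⁻¹⌉₊ + δ.den.size) ≤ δ := by
  refine ⟨?_, ?_, ?_⟩
  · have := Nat.size_pos.2 δ.pos
    omega
  · push_cast
    exact (Nat.le_ceil _).trans (le_add_of_nonneg_right (by positivity))
  · have h1 : (δ.den : ℝ) ≤ 2 ^ δ.den.size := by exact_mod_cast (Nat.lt_size_self δ.den).le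
    have h2 : (1 : ℝ) ≤ δ.num := by exact_mod_cast Rat.num_pos.2 hδ
    have h3 : (0 : ℝ) < δ.den := by exact_mod_cast δ.pos
    calc (2 : ℝ)⁻¹ ^ (⌈ε⁻¹⌉₊ + δ.den.size) ≤ 2⁻¹ ^ δ.den.size :=
          pow_le_pow_of_le_one (by norm_num) (by norm_num) (Nat.le_add_left _ _)
      _ = 1 / 2 ^ δ.den.size := by rw [inv_pow, one_div]
      _ ≤ δ.num / δ.den := div_le_div₀ (by linarith) h2 h3 h1
      _ = δ := by rw [← Rat.cast_def]

/-- The parsed input of the counter. -/
def parse79 (x : Raw) : In79 :=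
  ((mkL (un (sz x) (tok x 0)) (fun i => ⟨tok x (2 + i)⟩),
    mkL (un (sz x) (tok x 1)) (fun i => ⟨tok x (2 + un (sz x) (tok x 0) + i)⟩)),
   mkL (un (sz x) (tok x 0) * un (sz x) (tok x 1))
     (fun i => ⟨tok x (2 + un (sz x) (tok x 0) + un (sz x) (tok x 1) + i)⟩),
   accOf (skip^[2 + un (sz x) (tok x 0) + un (sz x) (tok x 1) +
     un (sz x) (tok x 0) * un (sz x) (tok x 1)] x))

theorem pt_parse79 : PT parse79 := by
  have hm : PT (fun x : Raw => un (sz x) (tok x 0)) := by fun_prop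
  have hn : PT (fun x : Raw => un (sz x) (tok x 1)) := by fun_prop
  have hm' : PT (fun p : Raw × ℕ => un (sz p.1) (tok p.1 0)) := hm.comp (by fun_prop)
  have hn' : PT (fun p : Raw × ℕ => un (sz p.1) (tok p.1 1)) := hn.comp (by fun_prop)
  refine PT.pair (PT.pair (pt_mkL hm ?_) (pt_mkL hn ?_)) (PT.pair (pt_mkL (by fun_prop) ?_) ?_)
  · exact bt_tok (by fun_prop) (by fun_prop)
  · exact bt_tok (by fun_prop) (by fun_prop)
  · exact bt_tok (by fun_prop) (by fun_prop)
  · exact pt_accOf (pt_skips PT.id' (by fun_prop))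

theorem parse79_code {m n : ℕ} (rs : Fin m → ℕ) (cs : Fin n → ℕ) (b : Fin m → Fin n → ℕ)
    (ε δ : ℚ) (u : ℕ) :
    parse79 ⟨marginsCode rs cs ++ boundsCode b ++ ratCode ε ++ ratCode δ ++ List.replicate u true⟩ =
      (margins rs cs, flat b, u + δ.den.size) := by
  set B : List ℕ := (List.ofFn fun i => List.ofFn (b i)).flatten with hB
  set y := ratCode ε ++ (ratCode δ ++ List.replicate u true) with hy
  have hBl : B.length = m * n := by simp [hB, List.length_flatten, List.map_ofFn, Function.comp_def]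
  have hb : boundsCode b = (B.map natCode).flatten := by
    simp [boundsCode, hB, List.map_flatten, List.flatten_flatten, List.map_ofFn, Function.comp_def]
  set l : List ℕ := [m, n] ++ List.ofFn rs ++ List.ofFn cs ++ B with hl
  have hx : marginsCode rs cs ++ boundsCode b ++ ratCode ε ++ ratCode δ ++ List.replicate u true =
      (l.map natCode).flatten ++ y := by
    simp [marginsCode, hb, hl, hy]
  have hll : l.length = 2 + m + n + m * n := by simp [hl, hBl]; omega
  rw [hx]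
  have hsz : l.length ≤ sz (⟨(l.map natCode).flatten ++ y⟩ : Raw) := by
    have := length_le_codes l
    simp only [sz_raw, List.length_append]
    omega
  have h0 : un (sz (⟨(l.map natCode).flatten ++ y⟩ : Raw)) (tok ⟨(l.map natCode).flatten ++ y⟩ 0) = m := by
    rw [tok_code _ _ _ (by omega)]
    have : l[0]'(by omega) = m := by simp [hl]
    rw [this]
    exact min_eq_left (by omega)
  have h1 : un (sz (⟨(l.map natCode).flatten ++ y⟩ : Raw)) (tok ⟨(l.map natCode).flatten ++ y⟩ 1) = n := by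
    rw [tok_code _ _ _ (by omega)]
    have : l[1]'(by omega) = n := by simp [hl]
    rw [this]
    exact min_eq_left (by omega)
  unfold parse79
  rw [h0, h1, ← hll, iter_skip skip natCode skip_code l y _ le_rfl]
  have a1 := toks_code [m, n] (List.ofFn rs) (List.ofFn cs ++ B) y
  have a2 := toks_code ([m, n] ++ List.ofFn rs) (List.ofFn cs) B y
  have a3 := toks_code ([m, n] ++ List.ofFn rs ++ List.ofFn cs) B [] y
  rw [← List.append_assoc _ (List.ofFn cs) B, ← hl] at a1
  rw [← hl] at a2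
  rw [List.append_nil, ← hl] at a3
  simp only [List.length_ofFn, List.length_append, List.length_cons, List.length_nil, hBl,
    zero_add, Nat.reduceAdd] at a1 a2 a3
  rw [a1, a2, a3]
  simp only [List.drop_length, List.map_nil, List.flatten_nil, List.nil_append, hy, accOf_code,
    margins, flat, List.map_ofFn, Function.comp_def, hB]

theorem s0479_of (c : In79 → ℕ) (f : In79 × Bin → ℚ) (hc : PT c) (hf : PT f)
    (H : GoodCounter c f) :
    ∃ (A : List Bool × List Bool → List Bool) (r : Polynomial ℕ), RandPolyTime A ∧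
      ∀ (m n : ℕ) (rs : Fin m → ℕ) (cs : Fin n → ℕ) (b : Fin m → Fin n → ℕ) (ε δ : ℚ),
        0 < ε → ε < 1 → 0 < δ → δ < 1 →
        (∀ ω : Fin (r.eval (marginsCode rs cs ++ boundsCode b ++ ratCode ε ++ ratCode δ ++ List.replicate ⌈ε⁻¹⌉₊ true).length) → Bool,
          ∃ z : ℚ, 0 ≤ z ∧ A (marginsCode rs cs ++ boundsCode b ++ ratCode ε ++ ratCode δ ++ List.replicate ⌈ε⁻¹⌉₊ true, List.ofFn ω) = ratCode z) ∧
        (numBoundedTables rs cs b = 0 →
          ∀ ω : Fin (r.eval (marginsCode rs cs ++ boundsCode b ++ ratCode ε ++ ratCode δ ++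
              List.replicate ⌈ε⁻¹⌉₊ true).length) → Bool,
            A (marginsCode rs cs ++ boundsCode b ++ ratCode ε ++ ratCode δ ++
              List.replicate ⌈ε⁻¹⌉₊ true, List.ofFn ω) = ratCode 0) ∧
        1 - (δ : ℝ) ≤ uniformProb {ω : Fin (r.eval (marginsCode rs cs ++ boundsCode b ++ ratCode ε ++
              ratCode δ ++ List.replicate ⌈ε⁻¹⌉₊ true).length) → Bool |
            ∃ z : ℚ, A (marginsCode rs cs ++ boundsCode b ++ ratCode ε ++ ratCode δ ++
                List.replicate ⌈ε⁻¹⌉₊ true, List.ofFn ω) = ratCode z ∧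
              (1 - ε) * numBoundedTables rs cs b ≤ z ∧ z ≤ (1 + ε) * numBoundedTables rs cs b} := by
  obtain ⟨A, r, hA, h⟩ := fpras_wrap parse79 pt_parse79 c f hc hf
  refine ⟨A, r, hA, fun m n rs cs b ε δ hε _ hδ _ => ?_⟩
  obtain ⟨a1, a2, a3⟩ := acc_spec ε hδ
  obtain ⟨h1, h2, h3⟩ := H m n rs cs b _ a1
  refine h _ (numBoundedTables rs cs b) ε δ _ hε a2 a3 ?_ ?_ ?_ <;> rw [parse79_code]
  exacts [h1, h2, h3]

end Crest.Agent.R309X
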