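import Crest.Agent.R309X.Exact1
import Crest.Agent.ORAM.Main

/-!
Row 309: the exact sampler on the word RAM.
-/

set_option autoImplicit false

namespace Crest.Agent.R309X

open Crest.Agent.PT Crest.Agent.QC Crest.Agent.R317 Crest.Agent.ORAM Crest.Tables Finset

theorem size_le_clog (N : ℕ) : N.size ≤ Nat.clog 2 (N + 2) :=
  Nat.size_le.2 ((by omega : N < N + 2).trans_le (Nat.le_pow_clog (by norm_num) _))

theorem cMg_eq {m n : ℕ} (rs : Fin m → ℕ) (cs : Fin n → ℕ) (w : ℕ) :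
    cMg (w, (m :: n :: (List.ofFn rs ++ List.ofFn cs)).map Bin.mk) = margins rs cs := by
  have h1 : un (m + n + 1 + 1) m = m := min_eq_left (by omega)
  have h2 : un (m + n + 1 + 1) n = n := min_eq_left (by omega)
  simp only [cMg, margins, List.map_cons, List.length_cons, List.length_map, List.length_append,
    List.length_ofFn, List.getD_cons_zero, List.getD_cons_succ, h1, h2]
  congr 1
  · refine mkL_eq_ofFn _ _ fun i => ?_
    rw [add_comm 2]
    simp [List.getD_eq_getElem?_getD, List.getElem?_append_left]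
  · refine mkL_eq_ofFn _ _ fun j => ?_
    rw [show 2 + m + j = (m + j) + 1 + 1 by ring]
    simp [List.getD_eq_getElem?_getD, List.getElem?_append_right]

theorem sz_margins_le {m n : ℕ} {rs : Fin m → ℕ} {cs : Fin n → ℕ} (hs : ∑ i, rs i = ∑ j, cs j)
    {B : ℕ} (hB : (∑ i, rs i).size ≤ B) : sz (margins rs cs) ≤ 2 * (m + n) * (2 * B + 1) + 1 := by
  have h1 := sz_list_le (margins rs cs).1 B fun x hx => by
    obtain ⟨i, rfl⟩ := List.mem_ofFn.1 hx
    exact (Nat.size_le_size (single_le_sum (f := rs) (fun _ _ => Nat.zero_le _)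
      (mem_univ i))).trans hB |>.trans' (sz_bin _).le
  have h2 := sz_list_le (margins rs cs).2 B fun x hx => by
    obtain ⟨i, rfl⟩ := List.mem_ofFn.1 hx
    rw [hs] at hB
    exact (Nat.size_le_size (single_le_sum (f := cs) (fun _ _ => Nat.zero_le _)
      (mem_univ i))).trans hB |>.trans' (sz_bin _).le
  rw [margins_len1] at h1
  rw [margins_len2] at h2
  have : sz (margins rs cs) = 2 * sz (margins rs cs).1 + sz (margins rs cs).2 + 1 := sz_pair _ _
  nlinarith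

theorem exp_aux {y c : ℕ} (h : c + 4 ≤ y) : (y + 1) * c + y + y + 1 < y ^ 2 := by
  obtain ⟨r, rfl⟩ := Nat.exists_eq_add_of_le h
  nlinarith

theorem s0481_of {β : Type} [Enc β] (A : Stream In β) (D : ℕ) (hA : GoodSampler A D) :
    ∃ (P : Crest.WordRAM.Program) (c₀ c₁ C d : ℕ),
      ∀ (m n : ℕ) (rs : Fin m → ℕ) (cs : Fin n → ℕ), ∑ i, rs i = ∑ j, cs j →
        Crest.WordRAM.expectedTime P (c₀ * (m + n + Nat.clog 2 (∑ i, rs i + 2) + 1) ^ c₁)
            (m :: n :: (List.ofFn rs ++ List.ofFn cs))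
          ≤ ((C * (m + n + Nat.clog 2 (∑ i, rs i + 2) + 1) ^ d : ℕ) : ENNReal) ∧
        (∀ (ρ : ℕ → ℕ) (T : ℕ) (out : List ℕ),
          Crest.WordRAM.HaltsWithin P (c₀ * (m + n + Nat.clog 2 (∑ i, rs i + 2) + 1) ^ c₁) ρ
            (m :: n :: (List.ofFn rs ++ List.ofFn cs)) T out →
          ∃ X : Fin m → Fin n → ℕ, IsTable rs cs X ∧
            out = (List.ofFn fun i => List.ofFn (X i)).flatten) ∧
        ∀ X : Fin m → Fin n → ℕ, IsTable rs cs X →
          Crest.WordRAM.probHaltsWith P (c₀ * (m + n + Nat.clog 2 (∑ i, rs i + 2) + 1) ^ c₁)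
              (m :: n :: (List.ofFn rs ++ List.ofFn cs))
              (fun out => out = (List.ofFn fun i => List.ofFn (X i)).flatten)
            = 1 / (numBoundedTables rs cs (fun _ _ => ∑ i, rs i) : ℝ) := by
  obtain ⟨P, c, hS⟩ := (two (lenX A) (resX A) (bt_lenX A) (pt_resX A)).sim_plain fun s => by
    rcases two_01 (hlen := bt_lenX A) (hres := pt_resX A) s with h | h <;> simp [h]
  obtain ⟨d, hd⟩ := (A.pt_T.mul A.pt_c).pbNat
  obtain ⟨α, b, hab⟩ := exists_params D d c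
  refine ⟨P, α ^ 2, b * 2, 2 * ((30 + 20 ^ d) * α ^ (2 * d + 3)) ^ (c + 1),
    b * (2 * d + 3) * (c + 1), fun m n rs cs hs => ?_⟩
  set N := ∑ i, rs i with hN
  set S := m + n + Nat.clog 2 (N + 2) + 1 with hSdef
  have hS1 : 1 ≤ S := by omega
  obtain ⟨n1, n2, n3, n4, n5⟩ := hab S hS1
  have hw : α ^ 2 * S ^ (b * 2) = (α * S ^ b) ^ 2 := by rw [mul_pow, pow_mul]
  have hC : 2 * ((30 + 20 ^ d) * α ^ (2 * d + 3)) ^ (c + 1) * S ^ (b * (2 * d + 3) * (c + 1)) =
      2 * ((30 + 20 ^ d) * (α * S ^ b) ^ (2 * d + 3)) ^ (c + 1) := by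
    rw [pow_mul, pow_mul, mul_assoc 2, ← mul_pow, mul_pow α, mul_assoc]
  rw [hw, hC]
  generalize α * S ^ b = y at *
  have hsize : N.size ≤ S := (size_le_clog N).trans (by omega)
  have hS3 : S ≤ S ^ 2 ∧ S ^ 2 ≤ S ^ 3 :=
    ⟨Nat.le_self_pow (by norm_num) S, Nat.pow_le_pow_right hS1 (by norm_num)⟩
  have hy1 : 1 ≤ y := by omega
  have hy3 : y ≤ y ^ 2 ∧ y ^ 2 ≤ y ^ 3 :=
    ⟨Nat.le_self_pow (by norm_num) y, Nat.pow_le_pow_right hy1 (by norm_num)⟩
  have hNw : N < 2 ^ y ^ 2 := Nat.size_le.1 (by omega)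
  have hyw : y ^ 2 < 2 ^ y ^ 2 := Nat.lt_two_pow_self
  set x := m :: n :: (List.ofFn rs ++ List.ofFn cs) with hx
  have hxl : x.length = m + n + 2 := by simp [hx]
  have hxlt : ∀ v ∈ x, v < 2 ^ y ^ 2 := by
    intro v hv
    simp only [hx, List.mem_cons, List.mem_append, List.mem_ofFn] at hv
    rcases hv with rfl | rfl | ⟨i, rfl⟩ | ⟨j, rfl⟩
    · omega
    · omega
    · exact (single_le_sum (f := rs) (fun _ _ => Nat.zero_le _) (mem_univ i)).trans_lt hNw
    · exact (single_le_sum (f := cs) (fun _ _ => Nat.zero_le _) (mem_univ j)).trans_lt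
        (hs ▸ hNw)
  set g : Ctx := (y ^ 2, x.map Bin.mk) with hgdef
  have hg0 : g = (y ^ 2, x.map fun v => ⟨v % 2 ^ y ^ 2⟩) := by
    rw [hgdef]
    congr 1
    exact List.map_congr_left fun v hv => by rw [Nat.mod_eq_of_lt (hxlt v hv)]
  have hg : cMg g = margins rs cs := cMg_eq rs cs _
  have hg1 : g.1 = y ^ 2 := rfl
  have hE : cE g = y := by
    rw [cE, hg1, Nat.nthRoot_pow (by norm_num), un, min_eq_left hy3.1]
  have hmg : sz (margins rs cs) ≤ 7 * S ^ 2 := by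
    have h1 := sz_margins_le hs hsize
    have h2 : 2 * (m + n) * (2 * S + 1) ≤ 2 * S * (3 * S) :=
      Nat.mul_le_mul (by omega) (by omega)
    have h3 : 2 * S * (3 * S) = 6 * S ^ 2 := by ring
    omega
  have hB : (sz (margins rs cs) + Nat.log 2 (2 * g.1 + 1) + 2) ^ D + 1 ≤ cE g := by
    rw [hE, hg1]
    exact le_trans (Nat.add_le_add_right (Nat.pow_le_pow_left (by omega) D) 1) n1
  have hR : cR A g ≤ (20 * y ^ 2) ^ d := by
    refine (hd (cA g)).trans (Nat.pow_le_pow_left ?_ d)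
    rw [cA, hg, sz_pair, sz_nat, hg1]
    omega
  have hL : mbits (margins rs cs) ≤ y := by
    rw [mbits, margins_len1, margins_len2, ebits, tot_margins]
    calc m * n * N.size ≤ S * S * S :=
          Nat.mul_le_mul (Nat.mul_le_mul (by omega) (by omega)) hsize
      _ = S ^ 3 := by ring
      _ ≤ y := n2
  have hM : mbits (margins rs cs) + (cR A g + 1) ≤ 2 ^ cE g := by rw [hE]; omega
  have hszg : 2 * sz g + y ^ 2 + y ^ 2 + x.length + 6 ≤ 30 * y ^ 3 := by
    have h1 := sz_list_le (x.map Bin.mk) (y ^ 2) fun v hv => by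
      obtain ⟨v', hv', rfl⟩ := List.mem_map.1 hv
      rw [sz_bin]
      exact Nat.size_le.2 (hxlt v' hv')
    rw [List.length_map, hxl] at h1
    have h2 : (m + n + 2) * (2 * y ^ 2 + 1) ≤ (2 * y) * (2 * y ^ 2 + 1) :=
      Nat.mul_le_mul_right _ (by omega)
    have h3 : (2 * y) * (2 * y ^ 2 + 1) = 4 * y ^ 3 + 2 * y := by ring
    rw [hgdef, sz_pair, sz_nat, hxl]
    omega
  have hlenT : lenX A (g, true) = 2 ^ y := by simp [lenX, hE]
  have hlenF : lenX A (g, false) = y ^ 2 + cR A g := by simp [lenX, hg1]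
  have hexp : (y + 1) * c + y + y + 1 < y ^ 2 := exp_aux n5
  have hQ2 : (2 ^ y + 2 ^ y) ^ c < 2 ^ y ^ 2 := by
    rw [← two_mul, ← pow_succ', ← pow_mul]
    exact Nat.pow_lt_pow_right (by norm_num) (by omega)
  obtain ⟨X₀, hX₀, -⟩ := run_table hA hs hg hB 0
  have hN0 : (0 : ℝ) < numBoundedTables rs cs (fun _ _ => N) := by exact_mod_cast num_pos hX₀
  have hN1 : (1 : ℝ) ≤ numBoundedTables rs cs (fun _ _ => N) := by exact_mod_cast num_pos hX₀
  have hLw : mbits (margins rs cs) ≤ g.1 := by rw [hg1]; omega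
  have hfail := pFail_true hA hs hg hB (hE ▸ hL) hLw hM
  obtain ⟨r1, r2, r3⟩ := two_main hS (w := y ^ 2) (by omega) x g hg0
    (fun f => if f = true then (2 ^ y + 2 ^ y) ^ c else (30 * y ^ 3 + (20 * y ^ 2) ^ d) ^ c)
    (fun f => by
      cases f
      · rw [hlenF, if_neg (by simp)]
        exact Nat.pow_le_pow_left (by omega) c
      · rw [hlenT, if_pos rfl]
        exact Nat.pow_le_pow_left (by omega) c)
    (fun f => by
      cases f
      · rw [if_neg (by simp)]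
        exact lt_of_le_of_lt (Nat.pow_le_pow_left (by omega) c) hQ2
      · rw [if_pos rfl]; exact hQ2)
    (by rw [hlenT]; exact Nat.one_le_two_pow)
    (fun f l _ h v hv => by
      obtain ⟨X, hX, e⟩ := res_table hA hs hg hB f l h
      rw [e] at hv
      exact (mem_flat_le hX hv).trans_lt hNw)
    (by
      have : (0 : ℝ) < 1 - pFail (lenX A) (resX A) g true := by rw [hfail]; positivity
      linarith)
  refine ⟨r1.trans ?_, fun ρ T out h => ?_, fun X hX => ?_⟩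
  · rw [← ENNReal.ofReal_natCast]
    refine ENNReal.ofReal_le_ofReal ?_
    rw [hfail, pFail_false, hlenT, hlenF, hg1]
    simp only [Bool.false_eq_true, if_false, if_true]
    set Z := (30 + 20 ^ d) * y ^ (2 * d + 3) with hZ
    have hp1 : y ^ 3 ≤ y ^ (2 * d + 3) := Nat.pow_le_pow_right hy1 (by omega)
    have hp2 : (20 * y ^ 2) ^ d ≤ 20 ^ d * y ^ (2 * d + 3) := by
      rw [mul_pow, ← pow_mul]
      exact Nat.mul_le_mul_left _ (Nat.pow_le_pow_right hy1 (by omega))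
    have hZ1 : 30 * y ^ 3 + (20 * y ^ 2) ^ d ≤ Z := by rw [hZ, add_mul]; omega
    have h1 : (30 * y ^ 3 + (20 * y ^ 2) ^ d) ^ c * (y ^ 2 + cR A g + 1) ≤ Z ^ (c + 1) := by
      rw [pow_succ Z]
      exact Nat.mul_le_mul (Nat.pow_le_pow_left hZ1 c) (by omega)
    have h2 : 1 ≤ Z ^ (c + 1) := Nat.one_le_pow _ _ (by omega)
    have h3 : (2 ^ y + 2 ^ y) ^ c * 2 ^ y * 2 ^ (mbits (margins rs cs) + 1) ≤ 2 ^ y ^ 2 := by
      rw [← two_mul, ← pow_succ', ← pow_mul, ← pow_add, ← pow_add]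
      exact Nat.pow_le_pow_right (by norm_num) (by omega)
    have h4 : (2 : ℝ)⁻¹ ^ y ^ 2 * ((((2 ^ y + 2 ^ y) ^ c : ℕ) : ℝ) * ((2 ^ y : ℕ) : ℝ) /
        (numBoundedTables rs cs (fun _ _ => N) / 2 ^ (mbits (margins rs cs) + 1))) ≤ 1 := by
      rw [inv_pow, inv_mul_le_iff₀ (by positivity), mul_one, div_div_eq_mul_div,
        div_le_iff₀ hN0]
      have h5 : (((2 ^ y + 2 ^ y) ^ c * 2 ^ y * 2 ^ (mbits (margins rs cs) + 1) : ℕ) : ℝ) ≤
          ((2 ^ y ^ 2 : ℕ) : ℝ) := by exact_mod_cast h3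
      push_cast at h5 ⊢
      refine h5.trans (le_mul_of_one_le_right (by positivity) hN1)
    have h6 : (((30 * y ^ 3 + (20 * y ^ 2) ^ d) ^ c * (y ^ 2 + cR A g + 1) : ℕ) : ℝ) ≤
        ((Z ^ (c + 1) : ℕ) : ℝ) := by exact_mod_cast h1
    have h7 : ((1 : ℕ) : ℝ) ≤ ((Z ^ (c + 1) : ℕ) : ℝ) := by exact_mod_cast h2
    rw [Nat.cast_mul, Nat.cast_add _ 1] at h6
    rw [Nat.cast_mul]
    simp only [Nat.cast_one, Nat.cast_ofNat] at h6 h7 ⊢
    linarith
  · obtain ⟨f, l, -, h1, h2⟩ := r2 ρ T out h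
    obtain ⟨X, hX, e⟩ := res_table hA hs hg hB f l h1
    exact ⟨X, hX, by rw [h2, e, map_val_flat]⟩
  · rw [← map_val_flat, r3]
    exact prob_total hA hs hg hB (hE ▸ hL) hLw hM hX

end Crest.Agent.R309X
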