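import Crest.Agent.R309X.EL

/-!
Row 309: numerical estimates for the exact sampler.
-/

set_option autoImplicit false

namespace Crest.Agent.R309X

open Crest.Agent.PT Finset

theorem poly_le_exp (C k : ℕ) : ∃ y₀ : ℕ, ∀ y ≥ y₀, C * y ^ k ≤ 2 ^ y := by
  have h := tendsto_pow_const_div_const_pow_of_one_lt k (r := 2) (by norm_num)
  have h2 := h.eventually (gt_mem_nhds (show (0 : ℝ) < 1 / (C + 1) by positivity))
  obtain ⟨y₀, hy⟩ := Filter.eventually_atTop.1 h2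
  refine ⟨y₀, fun y hy' => ?_⟩
  have h3 := hy y hy'
  rw [div_lt_div_iff₀ (by positivity) (by positivity), one_mul] at h3
  have h4 : (0 : ℝ) ≤ (y : ℝ) ^ k := by positivity
  have : ((C * y ^ k : ℕ) : ℝ) ≤ ((2 ^ y : ℕ) : ℝ) := by push_cast; nlinarith
  exact_mod_cast this

theorem exists_params (D d c : ℕ) : ∃ α β : ℕ, ∀ S : ℕ, 1 ≤ S →
    (7 * S ^ 2 + Nat.log 2 (2 * (α * S ^ β) ^ 2 + 1) + 2) ^ D + 1 ≤ α * S ^ β ∧
    S ^ 3 ≤ α * S ^ β ∧
    α * S ^ β + (20 * (α * S ^ β) ^ 2) ^ d + 1 ≤ 2 ^ (α * S ^ β) ∧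
    30 * (α * S ^ β) ^ 3 ≤ 2 ^ (α * S ^ β) ∧ c + 4 ≤ α * S ^ β := by
  obtain ⟨a₀, h₀⟩ := poly_le_exp (3 ^ D + 1) D
  obtain ⟨y₁, h₁⟩ := poly_le_exp (20 ^ d + 2) (2 * d + 1)
  obtain ⟨y₂, h₂⟩ := poly_le_exp 30 3
  set β := 2 * D + 3 with hβ
  set a := a₀ + y₁ + y₂ + c + 4 + (11 + 2 * β) with ha
  refine ⟨2 ^ a, β, fun S hS => ?_⟩
  have hSβ : 1 ≤ S ^ β := Nat.one_le_pow _ _ hS
  have hay : a ≤ 2 ^ a * S ^ β := by
    have := Nat.lt_two_pow_self (n := a)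
    nlinarith
  set y := 2 ^ a * S ^ β with hy
  refine ⟨?_, ?_, ?_, h₂ y (by omega), by omega⟩
  · have h1 : y ≤ 2 ^ (a + β * S) := by
      rw [pow_add, mul_comm β S, pow_mul]
      exact Nat.mul_le_mul_left _ (Nat.pow_le_pow_left Nat.lt_two_pow_self.le _)
    have h2 : 2 * y ^ 2 + 1 < 2 ^ (2 * (a + β * S) + 2) := by
      have : y ^ 2 ≤ (2 ^ (a + β * S)) ^ 2 := Nat.pow_le_pow_left h1 2
      have h3 : 1 ≤ (2 ^ (a + β * S)) ^ 2 := Nat.one_le_pow _ _ (by positivity)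
      rw [pow_add, mul_comm 2 (a + β * S), pow_mul]
      omega
    have h3 := Nat.log_lt_of_lt_pow (by omega) h2
    have hS2 : S ≤ S ^ 2 := by nlinarith
    have h4 : 7 * S ^ 2 + Nat.log 2 (2 * y ^ 2 + 1) + 2 ≤ 3 * a * S ^ 2 := by
      have e1 : a ≤ a * S ^ 2 := Nat.le_mul_of_pos_right _ (by positivity)
      have e2 : β * S ≤ β * S ^ 2 := Nat.mul_le_mul_left _ hS2
      have e3 : (11 + 2 * β) * S ^ 2 ≤ a * S ^ 2 := Nat.mul_le_mul_right _ (by omega)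
      nlinarith
    have h5 : (3 * a * S ^ 2) ^ D ≤ 3 ^ D * a ^ D * S ^ β := by
      rw [mul_pow, mul_pow, ← pow_mul]
      exact Nat.mul_le_mul_left _ (Nat.pow_le_pow_right hS (by omega))
    have h6 := h₀ a (by omega)
    have h7 : 1 ≤ a ^ D * S ^ β := Nat.mul_pos (Nat.pow_pos (by omega)) hSβ
    have h8 := Nat.pow_le_pow_left h4 D
    have h9 : (3 ^ D + 1) * a ^ D * S ^ β ≤ y := Nat.mul_le_mul_right _ h6
    nlinarith
  · calc S ^ 3 ≤ S ^ β := Nat.pow_le_pow_right hS (by omega)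
      _ ≤ y := Nat.le_mul_of_pos_left _ (by positivity)
  · have h1 := h₁ y (by omega)
    have hy1 : 1 ≤ y := by omega
    have h2 : y ≤ y ^ (2 * d + 1) := Nat.le_self_pow (by omega) y
    have h3 : y ^ (2 * d) ≤ y ^ (2 * d + 1) := Nat.pow_le_pow_right hy1 (by omega)
    have h4 : 20 ^ d * y ^ (2 * d) ≤ 20 ^ d * y ^ (2 * d + 1) := Nat.mul_le_mul_left _ h3
    rw [mul_pow, ← pow_mul]
    nlinarith

theorem EL_split (a b t : ℕ) (h : a + b ≤ t) (f : ℕ → ℕ → ℝ) :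
    EL t (fun l => f (valR l % 2 ^ a) (valR l / 2 ^ a % 2 ^ b)) =
      (∑ x ∈ range (2 ^ a), ∑ y ∈ range (2 ^ b), f x y) / 2 ^ (a + b) := by
  obtain ⟨r, rfl⟩ := Nat.exists_eq_add_of_le h
  rw [EL_valR _ (fun U => f (U % 2 ^ a) (U / 2 ^ a % 2 ^ b)), add_assoc, pow_add 2 a,
    sum_range_add_mul]
  have : ∀ x ∈ range (2 ^ a), ∑ V ∈ range (2 ^ (b + r)),
      f ((x + 2 ^ a * V) % 2 ^ a) ((x + 2 ^ a * V) / 2 ^ a % 2 ^ b) =
        2 ^ r * ∑ y ∈ range (2 ^ b), f x y := by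
    intro x hx
    have hx' := mem_range.1 hx
    rw [pow_add, sum_range_add_mul, mul_sum]
    refine sum_congr rfl fun y hy => ?_
    have hy' := mem_range.1 hy
    rw [sum_congr rfl (g := fun _ => f x y)]
    · simp
    · intro z _
      rw [Nat.add_mul_mod_self_left, Nat.mod_eq_of_lt hx', Nat.add_mul_div_left _ _ (by positivity),
        Nat.div_eq_of_lt hx', zero_add, Nat.add_mul_mod_self_left, Nat.mod_eq_of_lt hy']
  rw [sum_congr rfl this, ← mul_sum, pow_add, pow_add, pow_add]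
  field_simp

theorem sum_lt_ind {K a : ℕ} (h : a ≤ K) (c : ℝ) :
    ∑ u ∈ range K, (if u < a then c else 0) = a * c := by
  rw [← sum_filter]
  have : (range K).filter (· < a) = range a := by
    ext u; simp only [mem_filter, mem_range]; omega
  rw [this]
  simp

end Crest.Agent.R309X
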