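import Crest.Agent.R309X.Tab
import Crest.Agent.R309X.Num
import Crest.Agent.PT.Pair
import Crest.Prelude.Def_Randomized

/-!
Row 309: the almost uniform sampler as a randomized polynomial-time map.
-/

set_option autoImplicit false

namespace Crest.Agent.R309X.Samp

open Crest.Agent.PT Crest.Agent.QC Crest.Agent.R317 Crest.Tables Crest.Enc Crest.FinProb
  Crest.Randomized Finset

/-- the string after `i` number codes -/
def skp (x : Raw) (i : ℕ) : Raw := skip^[i] x

/-- number of rows -/
def nR (x : Raw) : ℕ := un (sz x) (rdNat x)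

/-- number of columns -/
def nC (x : Raw) : ℕ := un (sz x) (rdNat (skp x 1))

/-- the margins -/
def pMg (x : Raw) : Mg :=
  (mkL (nR x) fun i => ⟨rdNat (skp x (2 + i))⟩, mkL (nC x) fun j => ⟨rdNat (skp x (2 + nR x + j))⟩)

/-- the input of the streaming sampler -/
def pA (x : Raw) : In := (pMg x, sz (skp x (2 + nR x + nC x)) + mbits (pMg x))

/-- output code -/
def mcode (m n : ℕ) (Y : List Bin) : Raw :=
  (natCodeR m).app ((natCodeR n).app (Raw.concat Y.length fun i => (Y.getD i ⟨0⟩).code))

/-- the number written by a raw string -/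
def vR (x : Raw) : ℕ := valR x.val

variable {β : Type} [Enc β] (A : Stream In β) (D : ℕ)

/-- the algorithm -/
def alg (p : Raw × Raw) : Raw :=
  mcode (nR p.1) (nC p.1) (A.out (pA p.1) (A.runC (pA p.1) ((sz (pA p.1).1 + (pA p.1).2 + 2) ^ D)
    (vR p.2 % 2 ^ (A.T (pA p.1) * A.c (pA p.1))) (A.T (pA p.1))))

section PTs

variable {γ : Type} [Enc γ]

@[fun_prop] theorem bt_vR {f : γ → Raw} (hf : PT f) : BT (fun x => vR (f x)) := PT.ofRev hf

@[fun_prop] theorem pt_skp {x : γ → Raw} {i : γ → ℕ} (hx : PT x) (hi : PT i) :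
    PT (fun a => skp (x a) (i a)) := pt_iterShrink (pt_skip PT.id') length_skip hi hx

@[fun_prop] theorem pt_nR {x : γ → Raw} (hx : PT x) : PT (fun a => nR (x a)) := by
  unfold nR; fun_prop

@[fun_prop] theorem pt_nC {x : γ → Raw} (hx : PT x) : PT (fun a => nC (x a)) := by
  unfold nC; fun_prop

@[fun_prop] theorem pt_pMg {x : γ → Raw} (hx : PT x) : PT (fun a => pMg (x a)) := by
  unfold pMg; fun_prop

@[fun_prop] theorem pt_pA {x : γ → Raw} (hx : PT x) : PT (fun a => pA (x a)) := by
  have h1 : PT (fun a => sz (skp (x a) (2 + nR (x a) + nC (x a)))) := PT.len (by fun_prop)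
  exact (pt_pMg hx).pair (h1.add (pt_mbits (pt_pMg hx)))

@[fun_prop] theorem pt_mcode {m n : γ → ℕ} {Y : γ → List Bin} (hm : PT m) (hn : PT n)
    (hY : PT Y) : PT (fun a => mcode (m a) (n a) (Y a)) := by
  unfold mcode; fun_prop

theorem pt_alg : PT (alg A D) := by
  have h0 : PT (fun p : Raw × Raw => pA p.1) := pt_pA (by fun_prop)
  have h1 : PT (fun p : Raw × Raw => (sz (pA p.1).1 + (pA p.1).2 + 2) ^ D) :=
    ((h0.fst.len.add h0.snd).add (PT.const 2)).pow D
  have h2 : BT (fun p : Raw × Raw => vR p.2 % 2 ^ (A.T (pA p.1) * A.c (pA p.1))) :=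
    (bt_vR (by fun_prop)).mod ((BT.const 2).pow ((A.pt_T' h0).mul (A.pt_c' h0)))
  exact pt_mcode (pt_nR (by fun_prop)) (pt_nC (by fun_prop))
    (A.pt_out' h0 (A.pt_runC h0 h1 h2 (A.pt_T' h0)))

end PTs

theorem mcode_val (m n : ℕ) (Y : List Bin) : (mcode m n Y).val =
    natCode m ++ natCode n ++ (Y.map fun v => natCode v.val).flatten := by
  have : (List.range Y.length).map (fun i => natCode (Y.getD i ⟨0⟩).val) =
      Y.map fun v => natCode v.val := by
    apply List.ext_getElem
    · simp
    · intro i h1 h2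
      simp only [List.length_map] at h2
      simp [List.getD_eq_getElem?_getD, h2]
  simp only [mcode, Raw.app, natCodeR, Raw.val_concat, Bin.code, List.flatMap, this,
    List.append_assoc]

theorem matrixCode_eq {m n : ℕ} (X : Fin m → Fin n → ℕ) : matrixCode X =
    natCode m ++ natCode n ++ ((flat X).map fun v => natCode v.val).flatten := by
  simp [matrixCode, flat, List.map_flatten, List.flatten_flatten, Function.comp_def,
    List.map_ofFn]

theorem codes_inj {Y Y' : List Bin} (h : (Y.map fun v => natCode v.val).flatten =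
    (Y'.map fun v => natCode v.val).flatten) : Y = Y' := by
  induction Y generalizing Y' with
  | nil =>
    cases Y' with
    | nil => rfl
    | cons b Y' => simp [natCode] at h
  | cons a Y ih =>
    cases Y' with
    | nil => simp [natCode] at h
    | cons b Y' =>
      simp only [List.map_cons, List.flatten_cons] at h
      have h1 := congrArg (fun l => rdNat ⟨l⟩) h
      have h2 := congrArg (fun l => (skip ⟨l⟩).val) h
      simp only [rdNat_code, skip_code] at h1 h2
      obtain ⟨a⟩ := a
      obtain ⟨b⟩ := b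
      simp only at h1
      rw [h1, ih h2]

theorem mcode_eq_iff {m n : ℕ} (Y : List Bin) (X : Fin m → Fin n → ℕ) :
    (mcode m n Y).val = matrixCode X ↔ Y = flat X := by
  rw [mcode_val, matrixCode_eq, List.append_cancel_left_eq]
  exact ⟨codes_inj, fun h => by rw [h]⟩

theorem skp_codes (l : List ℕ) (y : List Bool) (i : ℕ) (hi : i ≤ l.length) :
    skp ⟨(l.map natCode).flatten ++ y⟩ i = ⟨((l.drop i).map natCode).flatten ++ y⟩ :=
  iter_skip skip natCode skip_code l y i hi

theorem rd_codes (l : List ℕ) (y : List Bool) (i : ℕ) (hi : i < l.length) :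
    rdNat (skp ⟨(l.map natCode).flatten ++ y⟩ i) = l[i] := by
  rw [skp_codes l y i hi.le, List.drop_eq_getElem_cons hi, List.map_cons, List.flatten_cons,
    List.append_assoc, rdNat_code]

theorem length_codes (l : List ℕ) : l.length ≤ (l.map natCode).flatten.length := by
  induction l with
  | nil => simp
  | cons a l ih =>
    rw [List.map_cons, List.flatten_cons, List.length_append, length_natCode, List.length_cons]
    omega

theorem parse {m n : ℕ} (rs : Fin m → ℕ) (cs : Fin n → ℕ) (k : ℕ) :
    nR ⟨marginsCode rs cs ++ List.replicate k true⟩ = m ∧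
    nC ⟨marginsCode rs cs ++ List.replicate k true⟩ = n ∧
    pA ⟨marginsCode rs cs ++ List.replicate k true⟩ =
      (margins rs cs, k + mbits (margins rs cs)) := by
  set l := m :: n :: (List.ofFn rs ++ List.ofFn cs) with hl
  have e : marginsCode rs cs = (l.map natCode).flatten := by simp [marginsCode, hl]
  have hlen : l.length = m + n + 2 := by simp [hl]
  have hsz : m + n + 2 ≤ sz (⟨(l.map natCode).flatten ++ List.replicate k true⟩ : Raw) := by
    have := length_codes l
    rw [sz_raw, List.length_append]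
    omega
  rw [e]
  have h0 : nR ⟨(l.map natCode).flatten ++ List.replicate k true⟩ = m := by
    have := rd_codes l (List.replicate k true) 0 (by omega)
    rw [nR, show rdNat ⟨(l.map natCode).flatten ++ List.replicate k true⟩ = m from this]
    exact min_eq_left (by omega)
  have h1 : nC ⟨(l.map natCode).flatten ++ List.replicate k true⟩ = n := by
    rw [nC, rd_codes l (List.replicate k true) 1 (by omega)]
    exact min_eq_left (show n ≤ _ by omega)
  have h2 : pMg ⟨(l.map natCode).flatten ++ List.replicate k true⟩ = margins rs cs := by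
    rw [pMg, h0, h1, margins]
    congr 1
    · refine mkL_eq_ofFn _ _ fun i => ?_
      rw [rd_codes l _ _ (by omega)]
      simp [hl, add_comm 2]
    · refine mkL_eq_ofFn _ _ fun j => ?_
      rw [rd_codes l _ _ (by omega)]
      simp [hl, show 2 + m + j = (m + j) + 1 + 1 by ring]
  refine ⟨h0, h1, ?_⟩
  rw [pA, h2, h0, h1, skp_codes l _ _ (by omega), List.drop_of_length_le (by omega)]
  simp

end Crest.Agent.R309X.Samp

namespace Crest.Agent.R309X

open Crest.Agent.PT Crest.Agent.QC Crest.Agent.R317 Crest.Tables Crest.Enc Crest.FinProb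
  Crest.Randomized Finset Samp

theorem s0480_of {β : Type} [Enc β] (A : Stream In β) (D : ℕ) (hA : GoodSampler A D) :
    ∃ (A : List Bool × List Bool → List Bool) (r : Polynomial ℕ), RandPolyTime A ∧
      ∀ (m n : ℕ) (rs : Fin m → ℕ) (cs : Fin n → ℕ) (k : ℕ), 1 ≤ k → ∑ i, rs i = ∑ j, cs j →
        (∀ ω : Fin (r.eval (marginsCode rs cs ++ List.replicate k true).length) → Bool,
          ∃ X : Fin m → Fin n → ℕ, IsTable rs cs X ∧
            A (marginsCode rs cs ++ List.replicate k true, List.ofFn ω) = matrixCode X) ∧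
        (∑ X : (i : Fin m) → (j : Fin n) → Fin (∑ i, rs i + 1),
            |uniformProb {ω : Fin (r.eval (marginsCode rs cs ++ List.replicate k true).length) → Bool |
                A (marginsCode rs cs ++ List.replicate k true, List.ofFn ω) =
                  matrixCode (fun i j => (X i j : ℕ))} -
              uniformTableWeight rs cs (fun i j => (X i j : ℕ))|) / 2
          ≤ (2 : ℝ)⁻¹ ^ k := by
  classical
  have hR : PT (fun x : Raw => A.T (pA x) * A.c (pA x)) := by fun_prop
  obtain ⟨e, he⟩ := hR.pbNat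
  refine ⟨fun q => (alg A D (⟨q.1⟩, ⟨q.2⟩)).val, (Polynomial.X + 2) ^ e,
    (pt_alg A D).toPair _ _ (fun _ => rfl), fun m n rs cs k hk hs => ?_⟩
  obtain ⟨h1, h2, h3⟩ := parse rs cs k
  have hr := he ⟨marginsCode rs cs ++ List.replicate k true⟩
  simp only [h3, sz_raw] at hr
  have hev : ((Polynomial.X + 2 : Polynomial ℕ) ^ e).eval
      (marginsCode rs cs ++ List.replicate k true).length =
      ((marginsCode rs cs ++ List.replicate k true).length + 2) ^ e := by simp
  rw [← hev] at hr
  generalize ((Polynomial.X + 2 : Polynomial ℕ) ^ e).eval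
      (marginsCode rs cs ++ List.replicate k true).length = r at hr ⊢
  set a : In := (margins rs cs, k + mbits (margins rs cs)) with ha
  obtain ⟨-, g2, g3, g4⟩ := hA m n rs cs (k + mbits (margins rs cs)) (by omega) hs
  rw [← ha] at g2 g3 g4
  have halg : ∀ l : List Bool, alg A D (⟨marginsCode rs cs ++ List.replicate k true⟩, ⟨l⟩) =
      mcode m n (A.out a (A.run a (valR l % 2 ^ (A.T a * A.c a)) (A.T a))) := by
    intro l
    simp only [alg, h1, h2, h3, vR]
    rw [A.runC_eq fun i s hi h => (g2 i s hi h).trans (Nat.pow_le_pow_left ?_ D)]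
    have := Nat.log_le_self 2 (k + mbits (margins rs cs))
    simp only [ha]
    omega
  have hprob : ∀ X : Fin m → Fin n → ℕ, uniformProb {ω : Fin r → Bool |
      (alg A D (⟨marginsCode rs cs ++ List.replicate k true⟩, ⟨List.ofFn ω⟩)).val = matrixCode X} =
      A.E a (A.T a) (fun s => if A.out a s = flat X then 1 else 0) := by
    intro X
    have e1 := uniformProb_eq_EL (Ω := Bool) id balanced_bool r (fun l =>
      (alg A D (⟨marginsCode rs cs ++ List.replicate k true⟩, ⟨l⟩)).val = matrixCode X)
    have e2 := EL_split (A.T a * A.c a) 0 r hr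
      (fun U _ => if A.out a (A.run a U (A.T a)) = flat X then 1 else 0)
    refine e1.trans ((EL_congr fun l _ => ?_).trans (e2.trans ?_))
    · simp only [halg, mcode_eq_iff]
    · rw [A.E_eq]
      simp
  refine ⟨fun ω => ?_, ?_⟩
  · obtain ⟨X, hX, e⟩ := g3 _ (A.reach_run a (valR (List.ofFn ω) % 2 ^ (A.T a * A.c a)) _)
    exact ⟨X, hX, by simp only [halg, mcode_eq_iff, e]⟩
  · simp only [hprob]
    have hle : ∀ X : (i : Fin m) → (j : Fin n) → Fin (∑ i, rs i + 1),
        |A.E a (A.T a) (fun s => if A.out a s = flat (fun i j => (X i j : ℕ)) then 1 else 0) -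
          uniformTableWeight rs cs (fun i j => (X i j : ℕ))| ≤
        if IsTable rs cs (fun i j => (X i j : ℕ)) then
          (2 : ℝ)⁻¹ ^ (k + mbits (margins rs cs)) else 0 := by
      intro X
      unfold uniformTableWeight
      split_ifs with hX
      · exact g4 _ hX
      · rw [A.E_eq, sum_eq_zero fun U _ => if_neg fun h => ?_]
        · simp
        · obtain ⟨Y, hY, e⟩ := g3 _ (A.reach_run a U _)
          exact hX (flat_inj (e.symm.trans h) ▸ hY)
    have hcard : (univ.filter fun X : (i : Fin m) → (j : Fin n) → Fin (∑ i, rs i + 1) =>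
        IsTable rs cs (fun i j => (X i j : ℕ))).card =
        numBoundedTables rs cs (fun _ _ => ∑ i, rs i) := by
      unfold numBoundedTables
      rw [Fintype.card_subtype]
      congr
    have hN : (numBoundedTables rs cs (fun _ _ => ∑ i, rs i) : ℝ) ≤ 2 ^ mbits (margins rs cs) := by
      exact_mod_cast num_le (rs := rs) (cs := cs)
    have h5 := sum_le_sum fun X (_ : X ∈ univ) => hle X
    rw [← sum_filter, sum_const, hcard, nsmul_eq_mul] at h5
    have h6 : (numBoundedTables rs cs (fun _ _ => ∑ i, rs i) : ℝ) *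
        (2 : ℝ)⁻¹ ^ (k + mbits (margins rs cs)) ≤ (2 : ℝ)⁻¹ ^ k := by
      refine (mul_le_mul_of_nonneg_right hN (by positivity)).trans (le_of_eq ?_)
      rw [pow_add, inv_pow, inv_pow]
      field_simp
    have h7 : (0 : ℝ) ≤ (2 : ℝ)⁻¹ ^ k := by positivity
    linarith

end Crest.Agent.R309X
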