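import Crest.Agent.R309.ACC
import Crest.Agent.R309.ANN
import Crest.Agent.R309.AV
import Crest.Agent.R309.BIJ
import Crest.Agent.R309.BUP
import Crest.Agent.R309.CNT
import Crest.Agent.R309.DES
import Crest.Agent.R309.EST
import Crest.Agent.R309.FEAS
import Crest.Agent.R309.GC
import Crest.Agent.R309.GS
import Crest.Agent.R309.HAR
import Crest.Agent.R309.HOE
import Crest.Agent.R309.HT
import Crest.Agent.R309.ITR
import Crest.Agent.R309.KEY
import Crest.Agent.R309.KRA
import Crest.Agent.R309.KT
import Crest.Agent.R309.LAM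
import Crest.Agent.R309.LF
import Crest.Agent.R309.LL
import Crest.Agent.R309.MAR
import Crest.Agent.R309.MIX
import Crest.Agent.R309.MRG
import Crest.Agent.R309.ONE
import Crest.Agent.R309.PRE
import Crest.Agent.R309.PRIM
import Crest.Agent.R309.PT1
import Crest.Agent.R309.PT2
import Crest.Agent.R309.RAT
import Crest.Agent.R309.REP
import Crest.Agent.R309.RNG
import Crest.Agent.R309.SAMP
import Crest.Agent.R309.SCH
import Crest.Agent.R309.SLI
import Crest.Agent.R309.SMB
import Crest.Agent.R309.SMO
import Crest.Agent.R309.STR1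
import Crest.Agent.R309.STR2
import Crest.Agent.R309.TAB
import Crest.Agent.R309.UP
import Crest.Agent.R309.WAL
import Crest.Agent.R309.WF
import Crest.Agent.R309X.Cnt
import Crest.Agent.R309X.Samp
import Crest.Agent.R309X.Exact

/-! Row 309: assembly. -/

set_option autoImplicit false

namespace Crest.Agent.R309X

open Crest.Agent.PT Crest.Agent.R309 Crest.Agent.R300U Crest.Agent.R317

theorem mrg : MrgStmt := MRG_proof SCH_proof
theorem lam : LamStmt := LAM_proof SCH_proof
theorem bup : BupStmt := BUP_proof (UP_proof mrg HAR_proof (SLI_proof (KEY_proof mrg ONE_proof)))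
theorem rep : RepStmt := REP_proof WF_proof BIJ_proof
theorem ll : LlStmt := LL_proof WF_proof rep
theorem ht : HtStmt := HT_proof BIJ_proof
theorem kt : KtStmt := KT_proof ht ll
theorem rat : RatStmt := RAT_proof BIJ_proof
theorem samp : SampStmt :=
  SAMP_proof (LF_proof WF_proof rep lam bup) ll SMO_proof KRA_proof MIX_proof kt rat ht
theorem est : EstStmt := EST_proof AV_proof (ITR_proof AV_proof) (HOE_proof AV_proof) samp BIJ_proof
theorem acc : AccStmt := ACC_proof (MAR_proof lam mrg SMB_proof) DES_proof WAL_proof BIJ_proof rep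
theorem ann : AnnStmt := ANN_proof (ITR_proof AV_proof) est rat acc BIJ_proof
theorem pre : PreStmt := PRE_proof (RNG_proof FEAS_proof) PRIM_proof

theorem gs : GsStmt := GS_proof FEAS_proof pre PT2_proof (STR1_proof kt ann BIJ_proof)
  (STR2_proof AV_proof samp ann BIJ_proof rat) TAB_proof

theorem gc : ∃ (c : In79 → ℕ) (f : In79 × Bin → ℚ), PT c ∧ PT f ∧ GoodCounter c f :=
  GC_proof FEAS_proof pre PT1_proof PT2_proof (CNT_proof AV_proof est ann BIJ_proof rat) TAB_proof

end Crest.Agent.R309X
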