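import Crest.Agent.R309X.Law

/-!
Row 309: matrices coded by numbers, enumeration of all tables.
-/

set_option autoImplicit false

namespace Crest.Agent.R309X

open Crest.Agent.PT Crest.Agent.QC Crest.Agent.R317 Crest.Tables Finset

theorem digits_ex (b K : ℕ) (d : ℕ → ℕ) (h : ∀ p < K, d p < 2 ^ b) :
    ∃ y < 2 ^ (K * b), ∀ p < K, fld y (p * b) b = d p := by
  induction K with
  | zero => exact ⟨0, by simp, fun p hp => by omega⟩
  | succ K ih =>
    obtain ⟨y, hy, h1⟩ := ih fun p hp => h p (by omega)
    have hK := h K (by omega)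
    refine ⟨y + 2 ^ (K * b) * d K, ?_, fun p hp => ?_⟩
    · rw [Nat.succ_mul, pow_add]
      nlinarith
    · rcases Nat.lt_succ_iff_lt_or_eq.1 hp with hp | rfl
      · rw [fld_add_low _ _ _ _ _ (by nlinarith), h1 p hp]
      · exact fld_add_high hy hK

theorem digits_uniq (b K : ℕ) {y y' : ℕ} (hy : y < 2 ^ (K * b)) (hy' : y' < 2 ^ (K * b))
    (h : ∀ p < K, fld y (p * b) b = fld y' (p * b) b) : y = y' := by
  induction K generalizing y y' with
  | zero => simp at hy hy'; omega
  | succ K ih =>
    have hpos : 0 < 2 ^ (K * b) := by positivity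
    rw [Nat.succ_mul, pow_add] at hy hy'
    have e := Nat.mod_add_div y (2 ^ (K * b))
    have e' := Nat.mod_add_div y' (2 ^ (K * b))
    have h1 := h K (by omega)
    rw [← e, ← e', fld_add_high (Nat.mod_lt _ hpos) (Nat.div_lt_of_lt_mul hy),
      fld_add_high (Nat.mod_lt _ hpos) (Nat.div_lt_of_lt_mul hy')] at h1
    have h2 := ih (Nat.mod_lt y hpos) (Nat.mod_lt y' hpos) fun p hp => by
      have := h p (by omega)
      rwa [← e, ← e', fld_add_low _ _ _ _ _ (by nlinarith),
        fld_add_low _ _ _ _ _ (by nlinarith)] at this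
    rw [← e, ← e', h1, h2]

/-- pairs of margin lists -/
abbrev Mg : Type := List Bin × List Bin

/-- the total -/
def tot (g : Mg) : ℕ := ∑ i ∈ range g.1.length, (g.1.getD i ⟨0⟩).val

/-- bits per entry -/
def ebits (g : Mg) : ℕ := (tot g).size

/-- bits per matrix -/
def mbits (g : Mg) : ℕ := g.1.length * g.2.length * ebits g

/-- the matrix coded by `y`, row by row -/
def cand (g : Mg) (y : ℕ) : List Bin :=
  mkL (g.1.length * g.2.length) fun p => ⟨fld y (p * ebits g) (ebits g)⟩

/-- `y` codes a table -/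
def isT (g : Mg) (y : ℕ) : Prop :=
  All g.1.length (fun i => ∑ j ∈ range g.2.length,
    fld y ((i * g.2.length + j) * ebits g) (ebits g) = (g.1.getD i ⟨0⟩).val) ∧
  All g.2.length (fun j => ∑ i ∈ range g.1.length,
    fld y ((i * g.2.length + j) * ebits g) (ebits g) = (g.2.getD j ⟨0⟩).val)

open Classical in
/-- the number of tables, by enumeration -/
noncomputable def cntT (g : Mg) (M : ℕ) : ℕ :=
  ∑ y ∈ range (un M (2 ^ mbits g)), if isT g y then 1 else 0

section

variable {γ : Type} [Enc γ]

@[fun_prop] theorem bt_tot {g : γ → Mg} (hg : PT g) : BT (fun x => tot (g x)) := by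
  unfold tot; fun_prop

@[fun_prop] theorem pt_ebits {g : γ → Mg} (hg : PT g) : PT (fun x => ebits (g x)) := by
  unfold ebits; fun_prop

@[fun_prop] theorem pt_mbits {g : γ → Mg} (hg : PT g) : PT (fun x => mbits (g x)) := by
  unfold mbits; fun_prop

@[fun_prop] theorem pt_cand {g : γ → Mg} {y : γ → ℕ} (hg : PT g) (hy : BT y) :
    PT (fun x => cand (g x) (y x)) := by
  have hy' : BT (fun p : γ × ℕ => y p.1) := hy.comp (by fun_prop)
  unfold cand; fun_prop

@[fun_prop] theorem dt_isT {g : γ → Mg} {y : γ → ℕ} (hg : PT g) (hy : BT y) :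
    DT (fun x => isT (g x) (y x)) := by
  have hy' : BT (fun p : (γ × ℕ) × ℕ => y p.1.1) := hy.comp (by fun_prop)
  unfold isT; fun_prop

@[fun_prop] theorem bt_cntT {g : γ → Mg} {M : γ → ℕ} (hg : PT g) (hM : PT M) :
    BT (fun x => cntT (g x) (M x)) := by
  unfold cntT; fun_prop

end

section

variable {m n : ℕ} (rs : Fin m → ℕ) (cs : Fin n → ℕ)

@[simp] theorem margins_len1 : (margins rs cs).1.length = m := by simp [margins]
@[simp] theorem margins_len2 : (margins rs cs).2.length = n := by simp [margins]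

theorem tot_margins : tot (margins rs cs) = ∑ i, rs i := by
  rw [tot, margins_len1, ← Fin.sum_univ_eq_sum_range (fun i => ((margins rs cs).1.getD i ⟨0⟩).val)]
  simp [margins]

theorem flat_eq_mkL (X : Fin m → Fin n → ℕ) (d : ℕ → ℕ)
    (h : ∀ (i : Fin m) (j : Fin n), d (i * n + j) = X i j) :
    flat X = mkL (m * n) fun p => ⟨d p⟩ := by
  induction m generalizing d with
  | zero => simp [flat, mkL]
  | succ m ih =>
    have h1 := ih (fun i => X i.castSucc) d fun i j => h i.castSucc j
    unfold flat mkL at h1 ⊢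
    rw [List.ofFn_succ', List.concat_eq_append, List.flatten_append, List.map_append, h1,
      Nat.succ_mul, List.range_add, List.map_append]
    congr 1
    apply List.ext_getElem
    · simp
    · intro j h2 h3
      simp only [List.flatten_singleton, List.length_map, List.length_ofFn] at h2
      simpa using (h (Fin.last m) ⟨j, h2⟩).symm

/-- the matrix coded by `y` -/
def matOf (y : ℕ) : Fin m → Fin n → ℕ := fun i j =>
  fld y ((i * n + j) * ebits (margins rs cs)) (ebits (margins rs cs))

theorem cand_eq (y : ℕ) : cand (margins rs cs) y = flat (matOf rs cs y) := by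
  rw [flat_eq_mkL (matOf rs cs y) (fun p => fld y (p * ebits (margins rs cs)) (ebits (margins rs cs)))
    fun _ _ => rfl, cand, margins_len1, margins_len2]

theorem isT_iff (y : ℕ) : isT (margins rs cs) y ↔ IsTable rs cs (matOf rs cs y) := by
  unfold isT IsTable All
  rw [margins_len1, margins_len2]
  refine and_congr ⟨fun h i => ?_, fun h i hi => ?_⟩ ⟨fun h j => ?_, fun h j hj => ?_⟩
  · have := h i i.2
    beta_reduce at this
    rw [Finset.sum_range] at this
    simpa [margins, matOf] using this
  · beta_reduce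
    rw [Finset.sum_range]
    simpa [margins, matOf, hi] using h ⟨i, hi⟩
  · have := h j j.2
    beta_reduce at this
    rw [Finset.sum_range] at this
    simpa [margins, matOf] using this
  · beta_reduce
    rw [Finset.sum_range]
    simpa [margins, matOf, hj] using h ⟨j, hj⟩

theorem idx_lt_mul (i : Fin m) (j : Fin n) : i * n + j < m * n := by
  have := i.2
  have := j.2
  nlinarith

/-- The entry function of a matrix on positions. -/
def entry (X : Fin m → Fin n → ℕ) (p : ℕ) : ℕ :=
  if h : p / n < m ∧ p % n < n then X ⟨p / n, h.1⟩ ⟨p % n, h.2⟩ else 0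

theorem entry_eq (X : Fin m → Fin n → ℕ) (i : Fin m) (j : Fin n) : entry X (i * n + j) = X i j := by
  have hn : 0 < n := j.pos
  have h1 : (i * n + j) / n = i := by
    rw [add_comm, Nat.add_mul_div_right _ _ hn, Nat.div_eq_of_lt j.2, zero_add]
  have h2 : (i * n + j) % n = j := by
    rw [add_comm, Nat.add_mul_mod_self_right, Nat.mod_eq_of_lt j.2]
  unfold entry
  rw [dif_pos ⟨by rw [h1]; exact i.2, by rw [h2]; exact j.2⟩]
  simp only [h1, h2]

theorem flat_getD (X : Fin m → Fin n → ℕ) (i : Fin m) (j : Fin n) :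
    ((flat X).getD (i * n + j) ⟨0⟩).val = X i j := by
  rw [flat_eq_mkL X (entry X) (entry_eq X), getD_mkL _ _ (idx_lt_mul i j), entry_eq]

theorem length_flat (X : Fin m → Fin n → ℕ) : (flat X).length = m * n := by
  rw [flat_eq_mkL X (entry X) (entry_eq X)]
  simp [mkL]

theorem flat_inj {X Y : Fin m → Fin n → ℕ} (h : flat X = flat Y) : X = Y := by
  funext i j
  rw [← flat_getD X, h, flat_getD]

variable {rs cs}

theorem table_le {X : Fin m → Fin n → ℕ} (hX : IsTable rs cs X) (i : Fin m) (j : Fin n) :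
    X i j ≤ ∑ i, rs i :=
  calc X i j ≤ ∑ j, X i j := single_le_sum (f := fun j => X i j) (fun _ _ => Nat.zero_le _)
        (mem_univ j)
    _ = rs i := hX.1 i
    _ ≤ _ := single_le_sum (f := rs) (fun _ _ => Nat.zero_le _) (mem_univ i)

theorem mem_flat_le {X : Fin m → Fin n → ℕ} (hX : IsTable rs cs X) {v : Bin} (hv : v ∈ flat X) :
    v.val ≤ ∑ i, rs i := by
  simp only [flat, List.mem_map, List.mem_flatten, List.mem_ofFn] at hv
  obtain ⟨_, ⟨_, ⟨i, rfl⟩, h⟩, rfl⟩ := hv
  obtain ⟨j, rfl⟩ := List.mem_ofFn.1 h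
  exact table_le hX i j

theorem matOf_inj {y y' : ℕ} (hy : y < 2 ^ mbits (margins rs cs))
    (hy' : y' < 2 ^ mbits (margins rs cs)) (h : matOf rs cs y = matOf rs cs y') : y = y' := by
  rw [mbits, margins_len1, margins_len2] at hy hy'
  refine digits_uniq _ _ hy hy' fun p hp => ?_
  have hn : 0 < n := Nat.pos_of_ne_zero (by rintro rfl; simp at hp)
  have := congrFun (congrFun h ⟨p / n, Nat.div_lt_of_lt_mul (by rwa [mul_comm])⟩)
    ⟨p % n, Nat.mod_lt _ hn⟩
  simpa [matOf, Nat.div_add_mod'] using this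

theorem exists_code {X : Fin m → Fin n → ℕ} (hX : IsTable rs cs X) :
    ∃ y < 2 ^ mbits (margins rs cs), matOf rs cs y = X := by
  obtain ⟨y, hy, h⟩ := digits_ex (ebits (margins rs cs)) (m * n) (entry X) fun p _ => by
    unfold entry
    split_ifs
    · rw [ebits, tot_margins]
      exact (table_le hX _ _).trans_lt (Nat.lt_size_self _)
    · positivity
  refine ⟨y, by rwa [mbits, margins_len1, margins_len2], ?_⟩
  funext i j
  rw [matOf, h _ (idx_lt_mul i j), entry_eq]

open Classical in
theorem sum_code {X : Fin m → Fin n → ℕ} (hX : IsTable rs cs X) (F : List Bin → ℝ) :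
    ∑ y ∈ range (2 ^ mbits (margins rs cs)),
      (if isT (margins rs cs) y ∧ cand (margins rs cs) y = flat X then
        F (cand (margins rs cs) y) else 0) = F (flat X) := by
  obtain ⟨y, hy, h⟩ := exists_code hX
  rw [sum_eq_single_of_mem y (mem_range.2 hy)]
  · rw [cand_eq, h, if_pos ⟨by rw [isT_iff, h]; exact hX, rfl⟩]
  · intro y' hy' hne
    refine if_neg fun h' => hne (matOf_inj (mem_range.1 hy') hy ?_)
    rw [h]
    exact flat_inj (by rw [← cand_eq]; exact h'.2)

open Classical in
theorem card_codes : ((range (2 ^ mbits (margins rs cs))).filter (isT (margins rs cs))).card =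
    numBoundedTables rs cs (fun _ _ => ∑ i, rs i) := by
  unfold numBoundedTables
  rw [← card_univ]
  refine card_bij (fun y hy => ⟨fun i j => ⟨matOf rs cs y i j, Nat.lt_succ_of_le
    (table_le ((isT_iff rs cs y).1 (mem_filter.1 hy).2) i j)⟩,
    (isT_iff rs cs y).1 (mem_filter.1 hy).2⟩) (fun _ _ => mem_univ _) ?_ ?_
  · intro y hy y' hy' h
    refine matOf_inj (mem_range.1 (mem_filter.1 hy).1) (mem_range.1 (mem_filter.1 hy').1) ?_
    funext i j
    exact congrArg Fin.val (congrFun (congrFun (congrArg Subtype.val h) i) j)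
  · rintro ⟨X, hX⟩ -
    obtain ⟨y, hy, h⟩ := exists_code (rs := rs) (cs := cs) (X := fun i j => X i j) hX
    refine ⟨y, mem_filter.2 ⟨mem_range.2 hy, by rw [isT_iff, h]; exact hX⟩, ?_⟩
    ext i j
    exact congrFun (congrFun h i) j

theorem cntT_eq {M : ℕ} (hM : 2 ^ mbits (margins rs cs) ≤ M) :
    cntT (margins rs cs) M = numBoundedTables rs cs (fun _ _ => ∑ i, rs i) := by
  classical
  rw [cntT, un, min_eq_left hM, ← card_codes, card_filter]

theorem num_le : numBoundedTables rs cs (fun _ _ => ∑ i, rs i) ≤ 2 ^ mbits (margins rs cs) := by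
  classical
  rw [← card_codes]
  exact (card_filter_le _ _).trans (card_range _).le

theorem num_pos {X : Fin m → Fin n → ℕ} (hX : IsTable rs cs X) :
    0 < numBoundedTables rs cs (fun _ _ => ∑ i, rs i) := by
  classical
  obtain ⟨y, hy, h⟩ := exists_code hX
  rw [← card_codes]
  exact card_pos.2 ⟨y, mem_filter.2 ⟨mem_range.2 hy, by rw [isT_iff, h]; exact hX⟩⟩

end

end Crest.Agent.R309X
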