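import Crest.Agent.R309X.Two
import Crest.Agent.R309X.Tab
import Crest.Agent.R309X.Num

/-!
Row 309: the exact sampler as a two-phase round machine, and its trial probabilities.
-/

set_option autoImplicit false

namespace Crest.Agent.R309X

open Crest.Agent.PT Crest.Agent.QC Crest.Agent.R317 Crest.Tables Finset

/-- the margins read off the input words -/
def cMg (g : Ctx) : Mg :=
  (mkL (un g.2.length (g.2.getD 0 ⟨0⟩).val) fun i => g.2.getD (2 + i) ⟨0⟩,
   mkL (un g.2.length (g.2.getD 1 ⟨0⟩).val) fun j =>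
     g.2.getD (2 + un g.2.length (g.2.getD 0 ⟨0⟩).val + j) ⟨0⟩)

/-- the input of the approximate sampler -/
def cA (g : Ctx) : In := (cMg g, 2 * g.1 + 1)

/-- the square root of the word length -/
def cE (g : Ctx) : ℕ := un g.1 (Nat.nthRoot 2 g.1)

variable {β : Type} [Enc β] (A : Stream In β)

/-- random bits of the approximate sampler -/
def cR (g : Ctx) : ℕ := A.T (cA g) * A.c (cA g)

/-- trial lengths -/
def lenX (p : Ctx × Bool) : ℕ := if p.2 = true then 2 ^ cE p.1 else p.1.1 + cR A p.1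

/-- residual weights -/
noncomputable def aw (g : Ctx) (M : ℕ) (Y : List Bin) : ℕ :=
  2 ^ (cR A g + g.1) - cntT (cMg g) M * (2 ^ g.1 - 1) * A.law (cA g) M Y

/-- result of the first trial -/
def resM (g : Ctx) (z U : ℕ) : Bool × List Bin :=
  if z = 0 then (false, []) else (true, A.out (cA g) (A.runC (cA g) (cE g) U (A.T (cA g))))

open Classical in
/-- result of a later trial -/
noncomputable def resT (g : Ctx) (M y u : ℕ) : Bool × List Bin :=
  if isT (cMg g) y ∧ u < aw A g M (cand (cMg g) y) then (true, cand (cMg g) y) else (false, [])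

/-- the number written by a raw string -/
def valRaw (x : Raw) : ℕ := valR x.val

/-- trial results -/
noncomputable def resX (s : TSt) : Bool × List Bin :=
  if s.2.1 = true then
    resT A s.1 (sz s.2.2) (valRaw s.2.2 % 2 ^ mbits (cMg s.1))
      (valRaw s.2.2 / 2 ^ mbits (cMg s.1) % 2 ^ (cR A s.1 + 1))
  else resM A s.1 (valRaw s.2.2 % 2 ^ s.1.1) (valRaw s.2.2 / 2 ^ s.1.1 % 2 ^ cR A s.1)

section PTs

variable {γ : Type} [Enc γ]

@[fun_prop] theorem bt_valRaw {f : γ → Raw} (hf : PT f) : BT (fun x => valRaw (f x)) := PT.ofRev hf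

@[fun_prop] theorem pt_cMg {g : γ → Ctx} (hg : PT g) : PT (fun x => cMg (g x)) := by
  unfold cMg; fun_prop

@[fun_prop] theorem pt_cA {g : γ → Ctx} (hg : PT g) : PT (fun x => cA (g x)) := by
  unfold cA; fun_prop

@[fun_prop] theorem pt_cE {g : γ → Ctx} (hg : PT g) : PT (fun x => cE (g x)) := by
  unfold cE; fun_prop

@[fun_prop] theorem pt_cR {g : γ → Ctx} (hg : PT g) : PT (fun x => cR A (g x)) := by
  unfold cR; fun_prop

theorem bt_lenX : BT (lenX A) := by
  unfold lenX; fun_prop

@[fun_prop] theorem bt_aw {g : γ → Ctx} {M : γ → ℕ} {Y : γ → List Bin} (hg : PT g) (hM : PT M)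
    (hY : PT Y) : BT (fun x => aw A (g x) (M x) (Y x)) := by
  unfold aw; fun_prop

@[fun_prop] theorem pt_resM {g : γ → Ctx} {z U : γ → ℕ} (hg : PT g) (hz : BT z) (hU : BT U) :
    PT (fun x => resM A (g x) (z x) (U x)) := by
  unfold resM; fun_prop

@[fun_prop] theorem pt_resT {g : γ → Ctx} {M y u : γ → ℕ} (hg : PT g) (hM : PT M) (hy : BT y)
    (hu : BT u) : PT (fun x => resT A (g x) (M x) (y x) (u x)) := by
  unfold resT; fun_prop

theorem pt_resX : PT (resX A) := by
  unfold resX; fun_prop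

end PTs

theorem map_val_flat {m n : ℕ} (X : Fin m → Fin n → ℕ) :
    (flat X).map Bin.val = (List.ofFn fun i => List.ofFn (X i)).flatten := by
  simp [flat, Function.comp_def]

theorem map_val_inj {l l' : List Bin} : l.map Bin.val = l'.map Bin.val ↔ l = l' :=
  List.map_inj_right fun ⟨_⟩ ⟨_⟩ h => congrArg Bin.mk h

section Core

variable {A} {D : ℕ} (hA : GoodSampler A D) {m n : ℕ} {rs : Fin m → ℕ} {cs : Fin n → ℕ}
  (hs : ∑ i, rs i = ∑ j, cs j) {g : Ctx} (hg : cMg g = margins rs cs)
  (hB : (sz (margins rs cs) + Nat.log 2 (2 * g.1 + 1) + 2) ^ D + 1 ≤ cE g)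

include hA hs hg hB

theorem runC_eq' (U : ℕ) :
    A.runC (cA g) (cE g) U (A.T (cA g)) = A.run (cA g) U (A.T (cA g)) := by
  refine A.runC_eq (fun i s hi h => ?_) U
  rw [cA, hg] at hi h
  have := (hA m n rs cs (2 * g.1 + 1) (by omega) hs).2.1 i s hi h
  omega

theorem run_table (U : ℕ) : ∃ X : Fin m → Fin n → ℕ, IsTable rs cs X ∧
    A.out (cA g) (A.run (cA g) U (A.T (cA g))) = flat X := by
  have := (hA m n rs cs (2 * g.1 + 1) (by omega) hs).2.2.1
  rw [cA, hg]
  exact this _ (A.reach_run _ _ _)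

theorem res_table (f : Bool) (l : List Bool) (h : (resX A (g, f, ⟨l⟩)).1 = true) :
    ∃ X : Fin m → Fin n → ℕ, IsTable rs cs X ∧ (resX A (g, f, ⟨l⟩)).2 = flat X := by
  cases f
  · simp only [resX, Bool.false_eq_true, if_false, resM] at h ⊢
    split_ifs at h ⊢ with h1
    rw [runC_eq' hA hs hg hB]
    exact run_table hA hs hg hB _
  · simp only [resX, if_true, resT] at h ⊢
    split_ifs at h ⊢ with h1
    rw [hg] at h1 ⊢
    exact ⟨_, (isT_iff rs cs _).1 h1.1, cand_eq rs cs _⟩

omit hA hs hg hB in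
theorem pFail_false : pFail (lenX A) (resX A) g false = (2 : ℝ)⁻¹ ^ g.1 := by
  have := EL_split g.1 (cR A g) (g.1 + cR A g) le_rfl (fun z _ => if z < 1 then 1 else 0)
  rw [sum_comm, sum_congr rfl fun _ _ => sum_lt_ind (Nat.one_le_two_pow) 1] at this
  rw [pFail]
  refine (EL_congr fun l _ => ?_).trans (this.trans ?_)
  · simp only [resX, Bool.false_eq_true, if_false, resM, valRaw]
    by_cases h : valR l % 2 ^ g.1 = 0 <;> simp [h]
  · simp [pow_add]
    field_simp

open Classical in
theorem pOut_false (X : Fin m → Fin n → ℕ) :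
    pOut (lenX A) (resX A) g false ((flat X).map Bin.val) = (1 - (2 : ℝ)⁻¹ ^ g.1) *
      A.E (cA g) (A.T (cA g)) (fun s => if A.out (cA g) s = flat X then 1 else 0) := by
  have := EL_split g.1 (cR A g) (g.1 + cR A g) le_rfl (fun z U =>
    (if A.out (cA g) (A.run (cA g) U (A.T (cA g))) = flat X then 1 else 0) -
    if z < 1 then (if A.out (cA g) (A.run (cA g) U (A.T (cA g))) = flat X then 1 else 0) else 0)
  rw [sum_comm, sum_congr rfl fun _ _ => by
    rw [sum_sub_distrib, sum_lt_ind (Nat.one_le_two_pow), sum_const, card_range]] at this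
  rw [pOut]
  refine (EL_congr fun l _ => ?_).trans (this.trans ?_)
  · simp only [resX, Bool.false_eq_true, if_false, resM, valRaw, map_val_inj,
      runC_eq' hA hs hg hB]
    by_cases h : valR l % 2 ^ g.1 = 0 <;> simp [h]
  · rw [A.E_eq, sum_sub_distrib, ← smul_sum, ← mul_sum]
    simp [pow_add, cR]
    field_simp

variable (hL : mbits (margins rs cs) ≤ cE g) (hLw : mbits (margins rs cs) ≤ g.1)
  (hM : mbits (margins rs cs) + (cR A g + 1) ≤ 2 ^ cE g)

include hL hLw

open Classical in
theorem aw_spec {X : Fin m → Fin n → ℕ} (hX : IsTable rs cs X) :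
    aw A g (2 ^ cE g) (flat X) ≤ 2 ^ (cR A g + 1) ∧
    (aw A g (2 ^ cE g) (flat X) : ℝ) = 2 ^ (cR A g + g.1) -
      numBoundedTables rs cs (fun _ _ => ∑ i, rs i) * (2 ^ g.1 - 1) * (2 ^ cR A g *
        A.E (cA g) (A.T (cA g)) (fun s => if A.out (cA g) s = flat X then 1 else 0)) := by
  obtain ⟨h1, h2, -, h4⟩ := hA m n rs cs (2 * g.1 + 1) (by omega) hs
  have e : cA g = (margins rs cs, 2 * g.1 + 1) := by rw [cA, hg]
  have hlaw := A.law_spec (a := cA g) (M := 2 ^ cE g)
    (Nat.pow_le_pow_right (by norm_num) (by rw [e]; omega))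
    (fun i s hi h => (idx_lt s).trans_le (Nat.pow_le_pow_right (by norm_num) (by
      rw [e] at hi h
      have := h2 i s hi h
      omega))) (flat X)
  have h5 := h4 X hX
  rw [← e] at h5
  set μ := A.E (cA g) (A.T (cA g)) (fun s => if A.out (cA g) s = flat X then 1 else 0) with hμ
  set N := numBoundedTables rs cs (fun _ _ => ∑ i, rs i) with hN
  have hN0 : (0 : ℝ) < N := by exact_mod_cast num_pos hX
  have hN1 : (N : ℝ) ≤ 2 ^ g.1 := by
    exact_mod_cast (num_le (rs := rs) (cs := cs)).trans (Nat.pow_le_pow_right (by norm_num) hLw)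
  set W : ℝ := 2 ^ g.1 with hW
  have hW1 : 1 ≤ W := one_le_pow₀ (by norm_num)
  have h6 : |N * μ - 1| ≤ 1 / (2 * W) := by
    have e1 : N * μ - 1 = N * (μ - 1 / N) := by field_simp
    have e2 : (2 : ℝ)⁻¹ ^ (2 * g.1 + 1) = 1 / (2 * W * W) := by
      rw [hW, two_mul g.1, pow_succ, pow_add, inv_pow]; field_simp
    rw [e1, abs_mul, abs_of_pos hN0]
    rw [e2] at h5
    calc _ ≤ W * (1 / (2 * W * W)) := mul_le_mul hN1 h5 (abs_nonneg _) (by positivity)
      _ = _ := by field_simp
  obtain ⟨h7, h8⟩ := abs_le.1 h6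
  have h9 : (W - 1) * (1 / (2 * W)) ≤ 1 / 2 := by
    rw [mul_one_div, div_le_div_iff₀ (by positivity) (by norm_num)]; linarith
  have hR : (0 : ℝ) < 2 ^ cR A g := by positivity
  have hc : ((cntT (cMg g) (2 ^ cE g) * (2 ^ g.1 - 1) * A.law (cA g) (2 ^ cE g) (flat X) : ℕ) : ℝ) =
      N * (W - 1) * (2 ^ cR A g * μ) := by
    rw [hg, cntT_eq (Nat.pow_le_pow_right (by norm_num) hL), Nat.cast_mul, Nat.cast_mul, hlaw,
      Nat.cast_sub Nat.one_le_two_pow]
    simp [hW, cR, hN]
  have hup : N * (W - 1) * (2 ^ cR A g * μ) ≤ 2 ^ (cR A g + g.1) := by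
    rw [pow_add, show N * (W - 1) * (2 ^ cR A g * μ) = 2 ^ cR A g * ((W - 1) * (N * μ)) by ring]
    refine mul_le_mul_of_nonneg_left ?_ hR.le
    nlinarith
  have hv : (aw A g (2 ^ cE g) (flat X) : ℝ) =
      2 ^ (cR A g + g.1) - N * (W - 1) * (2 ^ cR A g * μ) := by
    rw [aw, Nat.cast_sub (by rw [← hc] at hup; exact_mod_cast hup), hc]
    simp
  refine ⟨?_, hv⟩
  have : (aw A g (2 ^ cE g) (flat X) : ℝ) ≤ 2 ^ (cR A g + 1) := by
    rw [hv, pow_add, pow_succ, show 2 ^ cR A g * W - N * (W - 1) * (2 ^ cR A g * μ) =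
      2 ^ cR A g * (W - (W - 1) * (N * μ)) by ring]
    refine mul_le_mul_of_nonneg_left ?_ hR.le
    nlinarith
  exact_mod_cast this

include hM

theorem pOut_true {X : Fin m → Fin n → ℕ} (hX : IsTable rs cs X) :
    pOut (lenX A) (resX A) g true ((flat X).map Bin.val) =
      aw A g (2 ^ cE g) (flat X) / 2 ^ (mbits (margins rs cs) + (cR A g + 1)) := by
  classical
  have := EL_split _ _ _ hM (fun y u => if u < aw A g (2 ^ cE g) (flat X) then
    (if isT (margins rs cs) y ∧ cand (margins rs cs) y = flat X then 1 else 0) else 0)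
  rw [sum_congr rfl fun _ _ => sum_lt_ind (aw_spec hA hs hg hB hL hLw hX).1 _, ← mul_sum,
    sum_code hX (fun _ => 1), mul_one] at this
  rw [pOut]
  refine (EL_congr fun l hl => ?_).trans this
  have hl' : l.length = 2 ^ cE g := hl
  simp only [resX, if_true, resT, valRaw, map_val_inj, sz_raw, hl', hg]
  generalize valR l / 2 ^ mbits (margins rs cs) % 2 ^ (cR A g + 1) = u
  generalize valR l % 2 ^ mbits (margins rs cs) = y
  by_cases h1 : cand (margins rs cs) y = flat X
  · rw [h1]
    by_cases h2 : isT (margins rs cs) y <;> by_cases h3 : u < aw A g (2 ^ cE g) (flat X) <;>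
      simp [h2, h3]
  · by_cases h2 : isT (margins rs cs) y ∧ u < aw A g (2 ^ cE g) (cand (margins rs cs) y) <;>
      simp [h1, h2]

theorem pFail_true : 1 - pFail (lenX A) (resX A) g true =
    numBoundedTables rs cs (fun _ _ => ∑ i, rs i) / 2 ^ (mbits (margins rs cs) + 1) := by
  classical
  have := EL_split _ _ _ hM (fun y u => if isT (margins rs cs) y then
    (if u < aw A g (2 ^ cE g) (cand (margins rs cs) y) then 1 else 0) else 0)
  set N := numBoundedTables rs cs (fun _ _ => ∑ i, rs i) with hN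
  have h1 : ∀ y ∈ range (2 ^ mbits (margins rs cs)), ∑ u ∈ range (2 ^ (cR A g + 1)),
      (if isT (margins rs cs) y then
        (if u < aw A g (2 ^ cE g) (cand (margins rs cs) y) then (1 : ℝ) else 0) else 0) =
      (if isT (margins rs cs) y then 1 else 0) * 2 ^ (cR A g + g.1) - N * (2 ^ g.1 - 1) *
        ∑ U ∈ range (2 ^ cR A g), if isT (margins rs cs) y ∧ cand (margins rs cs) y =
          A.out (cA g) (A.run (cA g) U (A.T (cA g))) then 1 else 0 := by
    intro y _
    by_cases h : isT (margins rs cs) y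
    · have hX := (isT_iff rs cs y).1 h
      obtain ⟨h2, h3⟩ := aw_spec hA hs hg hB hL hLw hX
      simp only [h, if_true, true_and, cand_eq]
      rw [sum_lt_ind h2, h3, A.E_eq, cR, mul_div_cancel₀ _ (by positivity)]
      simp only [eq_comm (a := flat _), mul_one, one_mul]
      rfl
    · simp [h]
  have h2 : ∀ U ∈ range (2 ^ cR A g), ∑ y ∈ range (2 ^ mbits (margins rs cs)),
      (if isT (margins rs cs) y ∧ cand (margins rs cs) y =
        A.out (cA g) (A.run (cA g) U (A.T (cA g))) then (1 : ℝ) else 0) = 1 := by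
    intro U _
    obtain ⟨X, hX, e⟩ := run_table hA hs hg hB U
    rw [e]
    exact sum_code hX (fun _ => 1)
  rw [sum_congr rfl h1, sum_sub_distrib, ← sum_mul, ← mul_sum, sum_comm, sum_congr rfl h2,
    sum_boole, card_codes, ← hN] at this
  have e : ∀ F, 1 - EL (lenX A (g, true)) F = EL (lenX A (g, true)) (fun l => 1 - F l) :=
    fun F => by rw [EL_sub, EL_const]
  rw [pFail, e]
  refine (EL_congr fun l hl => ?_).trans (this.trans ?_)
  · have hl' : l.length = 2 ^ cE g := hl
    simp only [resX, if_true, resT, valRaw, sz_raw, hl', hg]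
    generalize valR l / 2 ^ mbits (margins rs cs) % 2 ^ (cR A g + 1) = u
    generalize valR l % 2 ^ mbits (margins rs cs) = y
    by_cases h4 : isT (margins rs cs) y
    · by_cases h3 : u < aw A g (2 ^ cE g) (cand (margins rs cs) y)
      · simp [h4, h3]
      · simp [h4, h3]
    · simp [h4]
  · simp [pow_add]
    field_simp
    ring

theorem prob_total {X : Fin m → Fin n → ℕ} (hX : IsTable rs cs X) :
    pOut (lenX A) (resX A) g false ((flat X).map Bin.val) + pFail (lenX A) (resX A) g false *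
      (pOut (lenX A) (resX A) g true ((flat X).map Bin.val) /
        (1 - pFail (lenX A) (resX A) g true)) =
    1 / (numBoundedTables rs cs (fun _ _ => ∑ i, rs i) : ℝ) := by
  have hN0 : (0 : ℝ) < numBoundedTables rs cs (fun _ _ => ∑ i, rs i) := by
    exact_mod_cast num_pos hX
  rw [pOut_false hA hs hg hB, pFail_false, pOut_true hA hs hg hB hL hLw hM hX,
    pFail_true hA hs hg hB hL hLw hM, (aw_spec hA hs hg hB hL hLw hX).2]
  simp only [pow_add, inv_pow]
  field_simp
  ring

end Core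

end Crest.Agent.R309X
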