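import Crest.Agent.R309X.EL
import Crest.Agent.ORAM.Defs
import Crest.Prelude.Def_WordRAMProb

/-!
Row 309: Las Vegas analysis of round machines that draw one bit per round.
-/

set_option autoImplicit false

namespace Crest.Agent.R309X

open Crest.Agent.PT Crest.Agent.ORAM Crest.WordRAM Finset

variable {σ : Type} [Enc σ]

/-- The program `P` simulates the round machine `A`. -/
def SimOK (A : Rnd σ) (P : Program) (c : ℕ) : Prop :=
  ∀ (w : ℕ) (ρ : ℕ → ℕ) (x : List ℕ) (K : ℕ),
    (∀ i ≤ K, A.cost (plainEnv w ρ) c x i < 2 ^ w) →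
    (A.act (A.st (plainEnv w ρ) x K).1 = 0 →
      (∀ v ∈ A.out (A.st (plainEnv w ρ) x K).1, v.val < 2 ^ w) →
      ∀ T, ∑ i ∈ range (K + 1), A.cost (plainEnv w ρ) c x i ≤ T →
        (run P w ρ x T).halted = true ∧
          (run P w ρ x T).output = (A.out (A.st (plainEnv w ρ) x K).1).map Bin.val) ∧
    (A.act (A.st (plainEnv w ρ) x K).1 ≠ 0 → (run P w ρ x K).halted = false)

/-- One round on a given bit. -/
def nx (A : Rnd σ) (s : σ) (b : Bool) : σ := if A.act s = 0 then s else A.upd (s, ⟨b.toNat⟩)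

/-- The first `t` random bits. -/
def bitsOf (ρ : ℕ → ℕ) (t : ℕ) : List Bool := List.ofFn fun i : Fin t => decide (ρ i % 2 = 1)

theorem bitsOf_succ (ρ : ℕ → ℕ) (t : ℕ) :
    bitsOf ρ (t + 1) = bitsOf ρ t ++ [decide (ρ t % 2 = 1)] := by
  unfold bitsOf
  rw [List.ofFn_succ', List.concat_eq_append]
  rfl

theorem length_bitsOf (ρ : ℕ → ℕ) (t : ℕ) : (bitsOf ρ t).length = t := by simp [bitsOf]

theorem take_bitsOf (ρ : ℕ → ℕ) {i t : ℕ} (h : i ≤ t) : (bitsOf ρ t).take i = bitsOf ρ i := by
  induction t, h using Nat.le_induction with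
  | base => exact List.take_of_length_le (by rw [length_bitsOf])
  | succ t h ih => rw [bitsOf_succ, List.take_append_of_le_length (by rwa [length_bitsOf]), ih]

theorem foldl_nx_halt (A : Rnd σ) {s : σ} (h : A.act s = 0) (l : List Bool) :
    l.foldl (nx A) s = s := by
  induction l with
  | nil => rfl
  | cons b l ih => rw [List.foldl_cons, nx, if_pos h, ih]

theorem st_eq (A : Rnd σ) (h01 : ∀ s, A.act s = 0 ∨ A.act s = 1) (w : ℕ) (ρ : ℕ → ℕ)
    (x : List ℕ) (i : ℕ) :
    (A.st (plainEnv w ρ) x i).1 =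
        (bitsOf ρ i).foldl (nx A) (A.init (w, x.map fun v => ⟨v % 2 ^ w⟩)) ∧
      (A.act (A.st (plainEnv w ρ) x i).1 ≠ 0 → (A.st (plainEnv w ρ) x i).2 = i) := by
  induction i with
  | zero => exact ⟨rfl, fun _ => rfl⟩
  | succ i ih =>
    rw [bitsOf_succ, List.foldl_append, ← ih.1, Rnd.st_succ]
    simp only [List.foldl_cons, List.foldl_nil, nx, Rnd.step]
    by_cases h : A.act (A.st (plainEnv w ρ) x i).1 = 0
    · simp [h]
    · have h1 := (h01 _).resolve_left h
      have h2 := ih.2 h
      rw [if_neg h, if_neg h, if_pos h1]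
      refine ⟨?_, fun _ => by simp [h2]⟩
      simp only [Rnd.ans, if_pos h1, h2]
      congr 3
      change ρ i % 2 = _
      rcases Nat.mod_two_eq_zero_or_one (ρ i) with h3 | h3 <;> simp [h3]

/-- Total cost along a list of bits. -/
def cst (A : Rnd σ) (q : σ → ℕ) : σ → List Bool → ℕ
  | s, [] => q s
  | s, b :: l => if A.act s = 0 then q s else q s + cst A q (nx A s b) l

theorem cst_anchor : True := by
  have := @cst.eq_def; have := @cst.eq_1; have := @cst.eq_2
  trivial

theorem cst_le_append (A : Rnd σ) (q : σ → ℕ) (s : σ) (l l' : List Bool) :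
    cst A q s l ≤ cst A q s (l ++ l') := by
  induction l generalizing s with
  | nil =>
    cases l' with
    | nil => exact le_rfl
    | cons b l' => simp only [List.nil_append, cst]; split_ifs <;> omega
  | cons b l ih =>
    simp only [List.cons_append, cst]
    have := ih (nx A s b)
    split_ifs <;> omega

theorem lt_cst_of_alive (A : Rnd σ) {q : σ → ℕ} (hq : ∀ s, 1 ≤ q s) (s : σ) (l : List Bool)
    (h : A.act (l.foldl (nx A) s) ≠ 0) : l.length < cst A q s l := by
  induction l generalizing s with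
  | nil => exact hq s
  | cons b l ih =>
    have hs : A.act s ≠ 0 := fun hs => h (by rw [foldl_nx_halt A hs]; exact hs)
    have := ih (nx A s b) h
    have := hq s
    simp only [cst, if_neg hs, List.length_cons]
    omega

theorem exists_halt_round (A : Rnd σ) (q : σ → ℕ) (s : σ) (l : List Bool)
    (h : A.act (l.foldl (nx A) s) = 0) :
    ∃ K ≤ l.length, A.act ((l.take K).foldl (nx A) s) = 0 ∧
      (l.take K).foldl (nx A) s = l.foldl (nx A) s ∧
      ∑ i ∈ range (K + 1), q ((l.take i).foldl (nx A) s) = cst A q s l := by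
  induction l generalizing s with
  | nil => exact ⟨0, le_rfl, h, rfl, by simp [cst]⟩
  | cons b l ih =>
    by_cases hs : A.act s = 0
    · exact ⟨0, Nat.zero_le _, hs, by rw [foldl_nx_halt A hs, foldl_nx_halt A hs], by simp [cst, hs]⟩
    · obtain ⟨K, hK, h1, h2, h3⟩ := ih (nx A s b) h
      refine ⟨K + 1, by simpa using hK, h1, h2, ?_⟩
      rw [sum_range_succ']
      simp only [List.take_succ_cons, List.foldl_cons, List.take_zero, List.foldl_nil, cst,
        if_neg hs, h3]
      omega

theorem inv_foldl (A : Rnd σ) {Inv : σ → Prop} (hI : ∀ s b, Inv s → Inv (nx A s b)) {s : σ}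
    (hs : Inv s) (l : List Bool) : Inv (l.foldl (nx A) s) := by
  induction l generalizing s with
  | nil => exact hs
  | cons b l ih => exact ih (hI s b hs)

theorem EL_cst_le (A : Rnd σ) (q : σ → ℕ) {Inv : σ → Prop} (hI : ∀ s b, Inv s → Inv (nx A s b))
    (V : σ → ℝ) (hV0 : ∀ s, Inv s → (q s : ℝ) ≤ V s)
    (hV : ∀ s, Inv s → A.act s ≠ 0 → q s + (V (nx A s false) + V (nx A s true)) / 2 ≤ V s)
    (t : ℕ) {s : σ} (hs : Inv s) : EL t (fun l => (cst A q s l : ℝ)) ≤ V s := by
  induction t generalizing s with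
  | zero => exact hV0 s hs
  | succ t ih =>
    rw [EL_succ]
    by_cases h : A.act s = 0
    · simp only [cst, if_pos h, EL_const]
      have := hV0 s hs
      linarith
    · simp only [cst, if_neg h, Nat.cast_add, EL_add, EL_const]
      have h1 := ih (hI s false hs)
      have h2 := ih (hI s true hs)
      have := hV s hs h
      linarith

theorem EL_harm (A : Rnd σ) {Inv : σ → Prop} (hI : ∀ s b, Inv s → Inv (nx A s b))
    (h : σ → ℝ) (hh : ∀ s, Inv s → A.act s ≠ 0 → h s = (h (nx A s false) + h (nx A s true)) / 2)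
    (t : ℕ) {s : σ} (hs : Inv s) : EL t (fun l => h (l.foldl (nx A) s)) = h s := by
  induction t generalizing s with
  | zero => rfl
  | succ t ih =>
    rw [EL_succ]
    simp only [List.foldl_cons]
    rw [ih (hI s false hs), ih (hI s true hs)]
    by_cases ha : A.act s = 0
    · simp only [nx, if_pos ha]; ring
    · exact (hh s hs ha).symm

theorem run_stable {P : Program} {w : ℕ} {ρ : ℕ → ℕ} {x : List ℕ} {T T' : ℕ}
    (h : (run P w ρ x T).halted = true) (hT : T ≤ T') : run P w ρ x T' = run P w ρ x T := by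
  induction T', hT using Nat.le_induction with
  | base => rfl
  | succ T' _ ih =>
    unfold run at ih h ⊢
    rw [Function.iterate_succ_apply', ih, step, if_pos h]

theorem uniformProb_mono {Ω : Type} [Fintype Ω] {E F : Set Ω} (h : E ⊆ F) :
    Crest.FinProb.uniformProb E ≤ Crest.FinProb.uniformProb F := by
  unfold Crest.FinProb.uniformProb
  refine div_le_div_of_nonneg_right (Nat.cast_le.2 (Finset.card_le_card fun ω => ?_))
    (Nat.cast_nonneg _)
  simp only [Finset.mem_filter, Finset.mem_univ, true_and]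
  exact fun hω => h hω

theorem bitsOf_streamOf {w T : ℕ} (tab : Fin T → Fin (2 ^ w)) :
    bitsOf (streamOf tab) T = List.ofFn fun i => decide ((tab i : ℕ) % 2 = 1) := by
  simp [bitsOf, streamOf]

open Classical in
theorem prob_bits {w : ℕ} (hw : 1 ≤ w) (T : ℕ) (Q : List Bool → Prop) :
    Crest.FinProb.uniformProb {tab : Fin T → Fin (2 ^ w) | Q (bitsOf (streamOf tab) T)} =
      EL T (fun l => if Q l then 1 else 0) := by
  simp only [bitsOf_streamOf]
  exact uniformProb_eq_EL (Ω := Fin (2 ^ w)) (fun v => decide ((v : ℕ) % 2 = 1))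
    (balanced_word hw) T Q

open Classical in
theorem prob_le_EL {w : ℕ} (hw : 1 ≤ w) (T : ℕ) (Q : List Bool → Prop)
    (E : Set (Fin T → Fin (2 ^ w))) (h : ∀ tab ∈ E, Q (bitsOf (streamOf tab) T)) :
    Crest.FinProb.uniformProb E ≤ EL T (fun l => if Q l then 1 else 0) := by
  rw [← prob_bits hw T Q]
  exact uniformProb_mono h

open Classical in
theorem EL_le_prob {w : ℕ} (hw : 1 ≤ w) (T : ℕ) (Q : List Bool → Prop)
    (E : Set (Fin T → Fin (2 ^ w))) (h : ∀ tab, Q (bitsOf (streamOf tab) T) → tab ∈ E) :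
    EL T (fun l => if Q l then 1 else 0) ≤ Crest.FinProb.uniformProb E := by
  rw [← prob_bits hw T Q]
  exact uniformProb_mono h

section Main

variable {A : Rnd σ} {P : Program} {c : ℕ} (hS : SimOK A P c)
  (h01 : ∀ s, A.act s = 0 ∨ A.act s = 1) {w : ℕ} {x : List ℕ} {Inv : σ → Prop}
  (h0 : Inv (A.init (w, x.map fun v => ⟨v % 2 ^ w⟩))) (hI : ∀ s b, Inv s → Inv (nx A s b))
  (hc : ∀ s, Inv s → (sz s + w + x.length + 2) ^ c < 2 ^ w)
  (ho : ∀ s, Inv s → A.act s = 0 → ∀ v ∈ A.out s, v.val < 2 ^ w)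

include hS h01 h0 hI hc ho

theorem halted_of_cst (ρ : ℕ → ℕ) (K T : ℕ)
    (hK : A.act ((bitsOf ρ K).foldl (nx A) (A.init (w, x.map fun v => ⟨v % 2 ^ w⟩))) = 0)
    (hT : cst A (fun s => (sz s + w + x.length + 2) ^ c)
      (A.init (w, x.map fun v => ⟨v % 2 ^ w⟩)) (bitsOf ρ K) ≤ T) :
    (run P w ρ x T).halted = true ∧ (run P w ρ x T).output =
      (A.out ((bitsOf ρ K).foldl (nx A) (A.init (w, x.map fun v => ⟨v % 2 ^ w⟩)))).map Bin.val := by
  obtain ⟨K', hK', h1, h2, h3⟩ :=
    exists_halt_round A (fun s => (sz s + w + x.length + 2) ^ c) _ _ hK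
  rw [length_bitsOf] at hK'
  rw [take_bitsOf ρ hK'] at h1 h2
  have hst := fun i => (st_eq A h01 w ρ x i).1
  have h4 := (hS w ρ x K' (fun i _ => by
    unfold Rnd.cost
    rw [hst]
    exact hc _ (inv_foldl A hI h0 _))).1 (by rw [hst]; exact h1)
    (by rw [hst]; exact ho _ (inv_foldl A hI h0 _) h1) T (by
      refine le_trans (le_of_eq ?_) (h3 ▸ hT)
      refine sum_congr rfl fun i hi => ?_
      have hi' : i ≤ K := by have := mem_range.1 hi; omega
      unfold Rnd.cost
      rw [hst, take_bitsOf ρ hi']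
      rfl)
  rw [hst, h2] at h4
  exact h4

theorem of_halted (ρ : ℕ → ℕ) (T : ℕ) (h : (run P w ρ x T).halted = true) :
    A.act ((bitsOf ρ T).foldl (nx A) (A.init (w, x.map fun v => ⟨v % 2 ^ w⟩))) = 0 ∧
      (run P w ρ x T).output =
      (A.out ((bitsOf ρ T).foldl (nx A) (A.init (w, x.map fun v => ⟨v % 2 ^ w⟩)))).map Bin.val := by
  have hst := fun i => (st_eq A h01 w ρ x i).1
  have h1 : A.act ((bitsOf ρ T).foldl (nx A) (A.init (w, x.map fun v => ⟨v % 2 ^ w⟩))) = 0 := by
    by_contra hne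
    have := (hS w ρ x T (fun i _ => by
      unfold Rnd.cost
      rw [hst]
      exact hc _ (inv_foldl A hI h0 _))).2 (by rw [hst]; exact hne)
    rw [h] at this
    exact absurd this (by simp)
  refine ⟨h1, ?_⟩
  have h2 := halted_of_cst hS h01 h0 hI hc ho ρ T _ h1 (le_max_left _ T)
  rw [run_stable h (le_max_right _ _)] at h2
  exact h2.2

theorem lv_out (ρ : ℕ → ℕ) (T : ℕ) (out : List ℕ) (h : HaltsWithin P w ρ x T out) :
    ∃ s, Inv s ∧ A.act s = 0 ∧ out = (A.out s).map Bin.val := by
  obtain ⟨h1, h2⟩ := of_halted hS h01 h0 hI hc ho ρ T h.1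
  exact ⟨_, inv_foldl A hI h0 _, h1, h.2 ▸ h2⟩

theorem lv_time (hw : 1 ≤ w) (V : σ → ℝ)
    (hV0 : ∀ s, Inv s → (((sz s + w + x.length + 2) ^ c : ℕ) : ℝ) ≤ V s)
    (hV : ∀ s, Inv s → A.act s ≠ 0 →
      ((sz s + w + x.length + 2) ^ c : ℕ) + (V (nx A s false) + V (nx A s true)) / 2 ≤ V s) :
    expectedTime P w x ≤ ENNReal.ofReal (V (A.init (w, x.map fun v => ⟨v % 2 ^ w⟩))) := by
  classical
  set s0 := A.init (w, x.map fun v => ⟨v % 2 ^ w⟩) with hs0
  set q : σ → ℕ := fun s => (sz s + w + x.length + 2) ^ c with hq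
  have hq1 : ∀ s, 1 ≤ q s := fun s => Nat.one_le_pow _ _ (by omega)
  have key : ∀ T, probAfter P w x T (fun c => c.halted = false) ≤
      EL T (fun l => if T < cst A q s0 l then 1 else 0) := by
    intro T
    refine (prob_le_EL hw T (fun l => T < cst A q s0 l) _ fun tab htab => ?_).trans
      (le_of_eq (EL_congr fun l _ => by congr))
    simp only [Set.mem_setOf_eq] at htab ⊢
    by_contra hle
    by_cases ha : A.act ((bitsOf (streamOf tab) T).foldl (nx A) s0) = 0
    · have := (halted_of_cst hS h01 h0 hI hc ho (streamOf tab) T T ha (not_lt.1 hle)).1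
      rw [htab] at this
      exact absurd this (by simp)
    · have := lt_cst_of_alive A hq1 s0 _ ha
      rw [length_bitsOf] at this
      exact hle this
  unfold expectedTime
  refine ENNReal.tsum_le_of_sum_range_le fun T₀ => ?_
  rw [← ENNReal.ofReal_sum_of_nonneg (fun T _ => by
    unfold probAfter Crest.FinProb.uniformProb; positivity)]
  refine ENNReal.ofReal_le_ofReal ?_
  calc ∑ T ∈ range T₀, probAfter P w x T (fun c => c.halted = false)
      ≤ ∑ T ∈ range T₀, EL T₀ (fun l => if T < cst A q s0 l then 1 else 0) := by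
        refine sum_le_sum fun T hT => (key T).trans ?_
        obtain ⟨r, rfl⟩ : ∃ r, T₀ = T + r := ⟨T₀ - T, by have := mem_range.1 hT; omega⟩
        rw [EL_append]
        refine EL_mono fun l _ => ?_
        rw [← EL_const r (if T < cst A q s0 l then 1 else 0)]
        refine EL_mono fun l' _ => ?_
        have := cst_le_append A q s0 l l'
        split_ifs <;> first | omega | norm_num
    _ = EL T₀ (fun l => ∑ T ∈ range T₀, if T < cst A q s0 l then 1 else 0) := (EL_sum _ _ _).symm
    _ ≤ EL T₀ (fun l => (cst A q s0 l : ℝ)) := by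
        refine EL_mono fun l _ => ?_
        rw [Finset.sum_boole]
        refine Nat.cast_le.2 ?_
        calc _ ≤ (range (cst A q s0 l)).card :=
              Finset.card_le_card fun T hT => by simpa using (Finset.mem_filter.1 hT).2
          _ = _ := Finset.card_range _
    _ ≤ V s0 := EL_cst_le A q hI V hV0 hV T₀ h0

theorem lv_prob (hw : 1 ≤ w) (V : σ → ℝ)
    (hV0 : ∀ s, Inv s → (((sz s + w + x.length + 2) ^ c : ℕ) : ℝ) ≤ V s)
    (hV : ∀ s, Inv s → A.act s ≠ 0 →
      ((sz s + w + x.length + 2) ^ c : ℕ) + (V (nx A s false) + V (nx A s true)) / 2 ≤ V s)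
    (o : List ℕ) (h : σ → ℝ) (hb : ∀ s, Inv s → 0 ≤ h s ∧ h s ≤ 1)
    (hz : ∀ s, Inv s → A.act s = 0 → h s = if (A.out s).map Bin.val = o then 1 else 0)
    (hh : ∀ s, Inv s → A.act s ≠ 0 → h s = (h (nx A s false) + h (nx A s true)) / 2) :
    probHaltsWith P w x (fun out => out = o) = h (A.init (w, x.map fun v => ⟨v % 2 ^ w⟩)) := by
  classical
  set s0 := A.init (w, x.map fun v => ⟨v % 2 ^ w⟩) with hs0
  set q : σ → ℕ := fun s => (sz s + w + x.length + 2) ^ c with hq
  have hq1 : ∀ s, 1 ≤ q s := fun s => Nat.one_le_pow _ _ (by omega)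
  have hup : ∀ T, probAfter P w x T (fun c => c.halted = true ∧ c.output = o) ≤ h s0 := by
    intro T
    rw [← EL_harm A hI h hh T h0]
    refine le_trans (prob_le_EL hw T
      (fun l => A.act (l.foldl (nx A) s0) = 0 ∧ (A.out (l.foldl (nx A) s0)).map Bin.val = o)
        _ fun tab htab => ?_) ?_
    · obtain ⟨h1, h2⟩ := of_halted hS h01 h0 hI hc ho (streamOf tab) T htab.1
      exact ⟨h1, h2 ▸ htab.2⟩
    · refine EL_mono fun l _ => ?_
      have hi := inv_foldl A hI h0 l
      split_ifs with hl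
      · rw [hz _ hi hl.1, if_pos hl.2]
      · exact (hb _ hi).1
  have hlow : ∀ T, h s0 - EL T (fun l => if T < cst A q s0 l then 1 else 0) ≤
      probAfter P w x T (fun c => c.halted = true ∧ c.output = o) := by
    intro T
    rw [← EL_harm A hI h hh T h0, ← EL_sub]
    refine le_trans ?_ (EL_le_prob hw T
      (fun l => A.act (l.foldl (nx A) s0) = 0 ∧ (A.out (l.foldl (nx A) s0)).map Bin.val = o ∧
        cst A q s0 l ≤ T) _ fun tab htab => ?_)
    · refine EL_mono fun l hl => ?_
      have hi := inv_foldl A hI h0 l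
      have hb' := hb _ hi
      by_cases h1 : T < cst A q s0 l
      · rw [if_pos h1]
        split_ifs <;> linarith [hb'.2]
      · have ha : A.act (l.foldl (nx A) s0) = 0 := by
          by_contra ha
          have := lt_cst_of_alive A hq1 s0 l ha
          omega
        rw [if_neg h1, hz _ hi ha]
        by_cases h2 : (A.out (l.foldl (nx A) s0)).map Bin.val = o
        · rw [if_pos h2, if_pos ⟨ha, h2, not_lt.1 h1⟩]; norm_num
        · rw [if_neg h2, if_neg fun h3 => h2 h3.2.1]; norm_num
    · obtain ⟨h1, h2⟩ := halted_of_cst hS h01 h0 hI hc ho (streamOf tab) T T htab.1 htab.2.2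
      exact ⟨h1, h2.trans htab.2.1⟩
  have hmk : ∀ T : ℕ, EL T (fun l => if T < cst A q s0 l then (1 : ℝ) else 0) ≤ V s0 / (T + 1) := by
    intro T
    rw [le_div_iff₀ (by positivity), mul_comm, ← EL_mul]
    refine le_trans (EL_mono fun l _ => ?_) (EL_cst_le A q hI V hV0 hV T h0)
    split_ifs with h1
    · rw [mul_one]; exact_mod_cast h1
    · simp
  unfold probHaltsWith
  refine le_antisymm (ciSup_le hup) ?_
  refine le_of_forall_pos_le_add fun ε hε => ?_
  obtain ⟨T, hT⟩ := exists_nat_gt (V s0 / ε)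
  have h1 : V s0 / (T + 1) ≤ ε := by
    rw [div_le_iff₀ (by positivity)]
    rw [div_lt_iff₀ hε] at hT
    nlinarith
  have h2 := le_ciSup (f := fun T => probAfter P w x T (fun c => c.halted = true ∧ c.output = o))
    ⟨h s0, by rintro _ ⟨T, rfl⟩; exact hup T⟩ T
  have h3 := hlow T
  have h4 := hmk T
  linarith

end Main

end Crest.Agent.R309X
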