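import Crest.Agent.R309X.EL

/-!
Row 309: running a streaming algorithm on a tape, and computing its law by dynamic programming.
-/

set_option autoImplicit false

namespace Crest.Agent.R309X

open Crest.Agent.PT Crest.Agent.QC Crest.Agent.R317 Finset

theorem PT_det {α β : Type} [Enc α] [Enc β] {f : α → β} (hf : PT f) {a a' : α}
    (h : enc a = enc a') : enc (f a) = enc (f a') := by
  obtain ⟨τ, _, M, T, -, hM⟩ := hf
  obtain ⟨t, -, h1⟩ := hM a
  obtain ⟨t', -, h2⟩ := hM a'
  rw [← h] at h2
  have e1 : M.step^[t' + t] (M.entry, st (enc a)) = (none, st (enc (f a))) := by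
    rw [Function.iterate_add_apply, h1, Mach.iter_none]
  have e2 : M.step^[t + t'] (M.entry, st (enc a)) = (none, st (enc (f a'))) := by
    rw [Function.iterate_add_apply, h2, Mach.iter_none]
  rw [add_comm, e1] at e2
  have := congrFun (Prod.mk.inj e2).2 none
  simpa [st] using this

theorem enc_bin_inj {x y : Bin} (h : enc x = enc y) : x = y := by
  obtain ⟨x⟩ := x
  obtain ⟨y⟩ := y
  rw [enc_bin, enc_bin] at h
  have h1 := valR_bits x
  have h2 := valR_bits y
  simp only at h
  rw [h, h2] at h1
  rw [h1]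

theorem enc_lbin_inj {x y : List Bin} (h : enc x = enc y) : x = y := by
  induction x generalizing y with
  | nil =>
    cases y with
    | nil => rfl
    | cons b y => rw [enc_nil, enc_cons] at h; simp at h
  | cons a x ih =>
    cases y with
    | nil => rw [enc_nil, enc_cons] at h; simp at h
    | cons b y =>
      rw [enc_cons, enc_cons] at h
      have h1 := congrArg fstL h
      have h2 := congrArg sndL h
      rw [fstL_pair, fstL_pair] at h1
      rw [sndL_pair, sndL_pair] at h2
      rw [enc_bin_inj h1, ih h2]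

theorem valR_inj {l l' : List Bool} (hl : l.length = l'.length) (h : valR l = valR l') : l = l' := by
  induction l generalizing l' with
  | nil => cases l' with
    | nil => rfl
    | cons _ _ => simp at hl
  | cons b l ih => cases l' with
    | nil => simp at hl
    | cons b' l' =>
      simp only [List.length_cons, Nat.add_right_cancel_iff] at hl
      rw [valR_cons, valR_cons, hl] at h
      have h1 := valR_lt l
      have h2 := valR_lt l'
      rw [hl] at h1
      cases b <;> cases b' <;> simp at h <;> first | omega | rw [ih hl h]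

/-- A number that determines the code of an object. -/
def idx {β : Type} [Enc β] (s : β) : ℕ := valR (true :: enc s)

section

variable {α β γ : Type} [Enc α] [Enc β] [Enc γ]

theorem idx_eq (s : β) : idx s = 2 ^ sz s + valR (enc s) := by simp [idx, valR_cons, sz]

theorem idx_lt (s : β) : idx s < 2 ^ (sz s + 1) := by
  have := valR_lt (enc s)
  rw [idx_eq, pow_succ]
  unfold sz
  omega

theorem sz_le_idx (s : β) : sz s ≤ idx s := by
  have := Nat.lt_two_pow_self (n := sz s)
  rw [idx_eq]
  omega

theorem enc_eq_of_idx {s s' : β} (h : idx s = idx s') : enc s = enc s' := by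
  have h1 := idx_lt s
  have h2 := idx_lt s'
  have h3 : 2 ^ sz s ≤ idx s := by rw [idx_eq]; omega
  have h4 : 2 ^ sz s' ≤ idx s' := by rw [idx_eq]; omega
  have h5 : sz s < sz s' + 1 := (Nat.pow_lt_pow_iff_right (a := 2) (by norm_num)).1 (by omega)
  have h6 : sz s' < sz s + 1 := (Nat.pow_lt_pow_iff_right (a := 2) (by norm_num)).1 (by omega)
  have h7 : sz s = sz s' := by omega
  rw [idx_eq, idx_eq, h7] at h
  exact valR_inj h7 (by omega)

theorem idx_congr {s s' : β} (h : enc s = enc s') : idx s = idx s' := by simp [idx, h]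

@[fun_prop] theorem bt_idx {f : α → β} (hf : PT f) : BT (fun a => idx (f a)) :=
  PT.ofRev (PT.cons (PT.const true) (PT.toRaw.comp hf))

@[fun_prop] theorem dt_lbin_eq {f g : α → List Bin} (hf : PT f) (hg : PT g) :
    DT (fun a => f a = g a) :=
  (DT.eq (bt_idx hf) (bt_idx hg)).congr fun _ =>
    ⟨fun h => enc_lbin_inj (enc_eq_of_idx h), fun h => by rw [h]⟩

theorem fld_lt (U s k : ℕ) : fld U s k < 2 ^ k := Nat.mod_lt _ (by positivity)

theorem fld_add_low (U u s k N : ℕ) (h : s + k ≤ N) : fld (U + 2 ^ N * u) s k = fld U s k := by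
  obtain ⟨r, rfl⟩ := Nat.exists_eq_add_of_le h
  unfold fld
  rw [show 2 ^ (s + k + r) * u = 2 ^ s * (2 ^ k * (2 ^ r * u)) by ring,
    Nat.add_mul_div_left _ _ (by positivity), Nat.add_mul_mod_self_left]

theorem fld_add_high {U u N k : ℕ} (hU : U < 2 ^ N) (hu : u < 2 ^ k) :
    fld (U + 2 ^ N * u) N k = u := by
  unfold fld
  rw [Nat.add_mul_div_left _ _ (by positivity), Nat.div_eq_of_lt hU, zero_add, Nat.mod_eq_of_lt hu]

namespace Stream

variable (A : Stream α β)

@[fun_prop] theorem pt_init' {a : γ → α} (ha : PT a) : PT (fun x => A.init (a x)) :=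
  A.pt_init.comp ha
@[fun_prop] theorem pt_T' {a : γ → α} (ha : PT a) : PT (fun x => A.T (a x)) := A.pt_T.comp ha
@[fun_prop] theorem pt_c' {a : γ → α} (ha : PT a) : PT (fun x => A.c (a x)) := A.pt_c.comp ha
@[fun_prop] theorem pt_out' {a : γ → α} {s : γ → β} (ha : PT a) (hs : PT s) :
    PT (fun x => A.out (a x) (s x)) := A.pt_out.comp (ha.pair hs)
@[fun_prop] theorem pt_step' {a : γ → α} {t : γ → ℕ} {s : γ → β} {u : γ → ℕ} (ha : PT a)
    (ht : PT t) (hs : PT s) (hu : BT u) : PT (fun x => A.step (a x) (t x) (s x) (u x)) :=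
  A.pt_step.comp (ha.pair (ht.pair (hs.pair hu)))

/-- The state after `t` steps on the tape `U`. -/
def run (a : α) (U t : ℕ) : β :=
  Nat.rec (A.init a) (fun i s => A.step a i s (fld U (i * A.c a) (A.c a))) t

theorem run_zero (a : α) (U : ℕ) : A.run a U 0 = A.init a := rfl

theorem run_succ (a : α) (U t : ℕ) :
    A.run a U (t + 1) = A.step a t (A.run a U t) (fld U (t * A.c a) (A.c a)) := rfl

theorem reach_run (a : α) (U t : ℕ) : A.Reach a t (A.run a U t) := by
  induction t with
  | zero => exact Reach.init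
  | succ t ih => exact ih.step (fld_lt _ _ _)

theorem run_add (a : α) (U u : ℕ) {t N : ℕ} (h : t * A.c a ≤ N) :
    A.run a (U + 2 ^ N * u) t = A.run a U t := by
  induction t with
  | zero => rfl
  | succ t ih =>
    rw [Nat.succ_mul] at h
    rw [run_succ, run_succ, ih (by omega), fld_add_low _ _ _ _ _ h]

theorem sum_run_succ (a : α) (t : ℕ) (F : β → ℝ) :
    ∑ U ∈ range (2 ^ ((t + 1) * A.c a)), F (A.run a U (t + 1)) =
      ∑ U ∈ range (2 ^ (t * A.c a)), ∑ u ∈ range (2 ^ A.c a), F (A.step a t (A.run a U t) u) := by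
  rw [Nat.succ_mul, pow_add, sum_range_add_mul]
  refine sum_congr rfl fun U hU => sum_congr rfl fun u hu => ?_
  rw [run_succ, A.run_add a U u le_rfl, fld_add_high (mem_range.1 hU) (mem_range.1 hu)]

theorem E_eq (a : α) (t : ℕ) (F : β → ℝ) :
    A.E a t F = (∑ U ∈ range (2 ^ (t * A.c a)), F (A.run a U t)) / 2 ^ (t * A.c a) := by
  induction t generalizing F with
  | zero => simp [E, run_zero]
  | succ t ih =>
    rw [E, ih, sum_run_succ, ← sum_div, Nat.succ_mul, pow_add]
    field_simp

/-- The run with a guard on the size of the state. -/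
def runC (a : α) (B U t : ℕ) : β :=
  Nat.rec (A.init a) (fun i s => if sz (A.step a i s (fld U (i * A.c a) (A.c a))) ≤ B then
    A.step a i s (fld U (i * A.c a) (A.c a)) else A.init a) t

theorem runC_eq {a : α} {B t : ℕ} (h : ∀ i s, i ≤ t → A.Reach a i s → sz s ≤ B) (U : ℕ) :
    A.runC a B U t = A.run a U t := by
  induction t with
  | zero => rfl
  | succ t ih =>
    have h1 := ih fun i s hi => h i s (by omega)
    have h2 := h _ _ le_rfl (A.reach_run a U (t + 1))
    rw [run_succ] at h2 ⊢
    rw [← h1] at h2 ⊢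
    exact if_pos h2

@[fun_prop] theorem pt_runC {a : γ → α} {B U t : γ → ℕ} (ha : PT a) (hB : PT B) (hU : BT U)
    (ht : PT t) : PT (fun x => A.runC (a x) (B x) (U x) (t x)) := by
  have hU' : BT (fun p : γ × ℕ × β => U p.1) := hU.comp (by fun_prop)
  refine PT.natRec (s := fun x i s => if sz (A.step (a x) i s (fld (U x) (i * A.c (a x))
    (A.c (a x)))) ≤ B x then A.step (a x) i s (fld (U x) (i * A.c (a x)) (A.c (a x)))
    else A.init (a x)) ht (by fun_prop) (by fun_prop)
    (B := fun x => B x + sz (A.init (a x))) (PT.pbNat (by fun_prop)) fun x i _ => ?_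
  cases i with
  | zero => simp
  | succ i => dsimp only; split_ifs <;> omega

/-- Search for a successor state with a given index. -/
def srch (a : α) (K t : ℕ) (v : List (β × Bin)) (i n : ℕ) : β :=
  Nat.rec (A.init a) (fun p r =>
    if idx (A.step a t (v.getD (p / K) (A.init a, ⟨0⟩)).1 (p % K)) = i then
      A.step a t (v.getD (p / K) (A.init a, ⟨0⟩)).1 (p % K) else r) n

theorem sz_srch (a : α) (K t : ℕ) (v : List (β × Bin)) (i n : ℕ) :
    sz (A.srch a K t v i n) ≤ sz (A.init a) + i := by
  induction n with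
  | zero => simp [srch]
  | succ n ih =>
    unfold srch at ih ⊢
    dsimp only
    split_ifs with h
    · have := sz_le_idx (A.step a t (v.getD (n / K) (A.init a, ⟨0⟩)).1 (n % K))
      omega
    · exact ih

theorem idx_srch (a : α) (K t : ℕ) (v : List (β × Bin)) (i n p : ℕ) (hp : p < n)
    (h : idx (A.step a t (v.getD (p / K) (A.init a, ⟨0⟩)).1 (p % K)) = i) :
    idx (A.srch a K t v i n) = i := by
  induction n with
  | zero => omega
  | succ n ih =>
    unfold srch at ih ⊢
    dsimp only
    split_ifs with h'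
    · exact h'
    · refine ih ?_
      rcases Nat.lt_succ_iff_lt_or_eq.1 hp with h1 | rfl
      · exact h1
      · exact absurd h h'

@[fun_prop] theorem pt_srch {a : γ → α} {K t i n : γ → ℕ} {v : γ → List (β × Bin)} (ha : PT a)
    (hK : PT K) (ht : PT t) (hv : PT v) (hi : PT i) (hn : PT n) :
    PT (fun x => A.srch (a x) (K x) (t x) (v x) (i x) (n x)) :=
  PT.natRec (s := fun x p r =>
    if idx (A.step (a x) (t x) ((v x).getD (p / K x) (A.init (a x), ⟨0⟩)).1 (p % K x)) = i x then
      A.step (a x) (t x) ((v x).getD (p / K x) (A.init (a x), ⟨0⟩)).1 (p % K x) else r)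
    hn (by fun_prop) (by fun_prop)
    (B := fun x => sz (A.init (a x)) + i x) (PT.pbNat (by fun_prop))
    fun x j _ => A.sz_srch (a x) (K x) (t x) (v x) (i x) j

/-- One step of the dynamic programme. -/
def dpStep (a : α) (M t : ℕ) (v : List (β × Bin)) : List (β × Bin) :=
  mkL M fun i => (A.srch a (un M (2 ^ A.c a)) t v i (M * un M (2 ^ A.c a)),
    ⟨∑ j ∈ range M, ∑ u ∈ range (un M (2 ^ A.c a)),
      if idx (A.step a t (v.getD j (A.init a, ⟨0⟩)).1 u) = i then
        (v.getD j (A.init a, ⟨0⟩)).2.val else 0⟩)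

@[fun_prop] theorem pt_dpStep {a : γ → α} {M t : γ → ℕ} {v : γ → List (β × Bin)} (ha : PT a)
    (hM : PT M) (ht : PT t) (hv : PT v) : PT (fun x => A.dpStep (a x) (M x) (t x) (v x)) := by
  unfold dpStep
  fun_prop

/-- The table of representatives and weights after `t` steps. -/
def dp (a : α) (M t : ℕ) : List (β × Bin) :=
  Nat.rec (mkL M fun i => (A.init a, ⟨if idx (A.init a) = i then 1 else 0⟩))
    (fun i v => A.dpStep a M i v) t

theorem dp_bound (a : α) (M t : ℕ) : (A.dp a M t).length = M ∧
    ∀ p ∈ A.dp a M t, sz p.1 ≤ sz (A.init a) + M ∧ p.2.val ≤ (M * M) ^ t := by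
  induction t with
  | zero =>
    refine ⟨by simp [dp, mkL], fun p hp => ?_⟩
    simp only [dp, mkL, Nat.rec_zero, List.mem_map] at hp
    obtain ⟨i, -, rfl⟩ := hp
    refine ⟨by simp, ?_⟩
    dsimp only
    split_ifs <;> simp
  | succ t ih =>
    have e : A.dp a M (t + 1) = A.dpStep a M t (A.dp a M t) := rfl
    rw [e]
    refine ⟨by simp [dpStep, mkL], fun p hp => ?_⟩
    simp only [dpStep, mkL, List.mem_map, List.mem_range] at hp
    obtain ⟨i, hi, rfl⟩ := hp
    refine ⟨(A.sz_srch _ _ _ _ _ _).trans (by omega), ?_⟩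
    dsimp only
    have h1 : ∀ j ∈ range M, ((A.dp a M t).getD j (A.init a, ⟨0⟩)).2.val ≤ (M * M) ^ t := by
      intro j hj
      refine (ih.2 _ ?_).2
      rw [List.getD_eq_getElem _ _ (by rw [ih.1]; exact mem_range.1 hj)]
      exact List.getElem_mem _
    calc _ ≤ ∑ j ∈ range M, ∑ u ∈ range (un M (2 ^ A.c a)), (M * M) ^ t := by
          refine sum_le_sum fun j hj => sum_le_sum fun u _ => ?_
          have := h1 j hj
          split_ifs <;> omega
      _ = M * (un M (2 ^ A.c a) * (M * M) ^ t) := by simp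
      _ ≤ M * (M * (M * M) ^ t) :=
          Nat.mul_le_mul_left _ (Nat.mul_le_mul_right _ (min_le_right _ _))
      _ = (M * M) ^ (t + 1) := by ring

@[fun_prop] theorem pt_dp {a : γ → α} {M t : γ → ℕ} (ha : PT a) (hM : PT M) (ht : PT t) :
    PT (fun x => A.dp (a x) (M x) (t x)) := by
  refine PT.natRec (s := fun x i v => A.dpStep (a x) (M x) i v) ht (by fun_prop) (by fun_prop)
    (B := fun x => M x * (2 * (2 * (sz (A.init (a x)) + M x) + (M x * M x * t x + 1) + 1) + 1))
    (PT.pbNat (by fun_prop)) fun x i hi => ?_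
  obtain ⟨h1, h2⟩ := A.dp_bound (a x) (M x) i
  have := sz_list_le (A.dp (a x) (M x) i)
    (2 * (sz (A.init (a x)) + M x) + (M x * M x * t x + 1) + 1) fun p hp => by
      obtain ⟨s, ⟨w⟩⟩ := p
      obtain ⟨h3, h4⟩ := h2 _ hp
      have h5 : w.size ≤ M x * M x * t x + 1 := by
        rw [Nat.size_le]
        calc w ≤ (M x * M x) ^ i := h4
          _ ≤ (2 ^ (M x * M x)) ^ i := Nat.pow_le_pow_left Nat.lt_two_pow_self.le _
          _ = 2 ^ (M x * M x * i) := (pow_mul _ _ _).symm
          _ ≤ 2 ^ (M x * M x * t x) :=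
            Nat.pow_le_pow_right (by norm_num) (Nat.mul_le_mul_left _ hi)
          _ < _ := Nat.pow_lt_pow_right (by norm_num) (by omega)
      simp only [sz_pair, sz_bin] at h3 ⊢
      omega
  rw [h1] at this
  exact this

theorem dp_spec {a : α} {M t : ℕ} (hc : 2 ^ A.c a ≤ M)
    (h : ∀ i s, i ≤ t → A.Reach a i s → idx s < M) :
    (∀ U, idx ((A.dp a M t).getD (idx (A.run a U t)) (A.init a, ⟨0⟩)).1 = idx (A.run a U t)) ∧
    ∀ i < M, (((A.dp a M t).getD i (A.init a, ⟨0⟩)).2.val : ℝ) =
      ∑ U ∈ range (2 ^ (t * A.c a)), if idx (A.run a U t) = i then 1 else 0 := by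
  induction t with
  | zero =>
    have h0 := h 0 _ le_rfl Reach.init
    refine ⟨fun U => ?_, fun i hi => ?_⟩
    · simp only [dp, Nat.rec_zero, run_zero]
      rw [getD_mkL _ _ h0]
    · simp only [dp, Nat.rec_zero, run_zero]
      rw [getD_mkL _ _ hi]
      simp
  | succ t ih =>
    obtain ⟨ih1, ih2⟩ := ih fun i s hi => h i s (by omega)
    have e : A.dp a M (t + 1) = A.dpStep a M t (A.dp a M t) := rfl
    have hK : un M (2 ^ A.c a) = 2 ^ A.c a := min_eq_left hc
    have hdet : ∀ U u, idx (A.step a t ((A.dp a M t).getD (idx (A.run a U t))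
        (A.init a, ⟨0⟩)).1 u) = idx (A.step a t (A.run a U t) u) := by
      intro U u
      refine idx_congr (PT_det A.pt_step (a := (a, t, _, ⟨u⟩))
        (a' := (a, t, A.run a U t, ⟨u⟩)) ?_)
      simp only [enc_pair, enc_eq_of_idx (ih1 U)]
    have hlt : ∀ U, idx (A.run a U t) < M := fun U => h _ _ (by omega) (A.reach_run a U t)
    rw [e]
    refine ⟨fun U => ?_, fun i hi => ?_⟩
    · rw [dpStep, getD_mkL _ _ (h _ _ le_rfl (A.reach_run a U (t + 1))), hK]
      have h1 := fld_lt U (t * A.c a) (A.c a)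
      have hpos : 0 < 2 ^ A.c a := by positivity
      refine A.idx_srch _ _ _ _ _ _
        (fld U (t * A.c a) (A.c a) + 2 ^ A.c a * idx (A.run a U t)) ?_ ?_
      · have := hlt U
        nlinarith
      · rw [Nat.add_mul_div_left _ _ hpos, Nat.div_eq_of_lt h1, zero_add,
          Nat.add_mul_mod_self_left, Nat.mod_eq_of_lt h1, hdet, run_succ]
    · rw [dpStep, getD_mkL _ _ hi, hK,
        A.sum_run_succ a t (fun s => if idx s = i then 1 else 0)]
      push_cast
      rw [← sum_fiberwise_of_maps_to (s := range (2 ^ (t * A.c a))) (t := range M)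
        (g := fun U => idx (A.run a U t)) (fun U _ => mem_range.2 (hlt U))]
      refine sum_congr rfl fun j hj => ?_
      rw [ih2 j (mem_range.1 hj), sum_comm]
      refine sum_congr rfl fun u _ => ?_
      rw [sum_filter]
      split_ifs with h1
      · refine sum_congr rfl fun U _ => ?_
        split_ifs with h2 h3
        · rfl
        · exact absurd (by rw [← hdet, h2, h1]) h3
        · rfl
      · refine (sum_eq_zero fun U _ => ?_).symm
        split_ifs with h2 h3
        · exact absurd (by rw [← h2, hdet, h3]) h1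
        · rfl
        · rfl

open Classical in
/-- The number of tapes that lead to the output `Y`. -/
noncomputable def law (a : α) (M : ℕ) (Y : List Bin) : ℕ :=
  ∑ i ∈ range M, if A.out a ((A.dp a M (A.T a)).getD i (A.init a, ⟨0⟩)).1 = Y then
    ((A.dp a M (A.T a)).getD i (A.init a, ⟨0⟩)).2.val else 0

@[fun_prop] theorem bt_law {a : γ → α} {M : γ → ℕ} {Y : γ → List Bin} (ha : PT a) (hM : PT M)
    (hY : PT Y) : BT (fun x => A.law (a x) (M x) (Y x)) := by
  unfold law
  fun_prop

open Classical in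
theorem law_spec {a : α} {M : ℕ} (hc : 2 ^ A.c a ≤ M)
    (h : ∀ i s, i ≤ A.T a → A.Reach a i s → idx s < M) (Y : List Bin) :
    (A.law a M Y : ℝ) = 2 ^ (A.T a * A.c a) *
      A.E a (A.T a) (fun s => if A.out a s = Y then 1 else 0) := by
  obtain ⟨h1, h2⟩ := A.dp_spec hc h
  have hlt : ∀ U, idx (A.run a U (A.T a)) < M := fun U => h _ _ le_rfl (A.reach_run a U _)
  rw [E_eq, mul_div_cancel₀ _ (by positivity), law]
  push_cast
  rw [← sum_fiberwise_of_maps_to (s := range (2 ^ (A.T a * A.c a))) (t := range M)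
    (g := fun U => idx (A.run a U (A.T a))) (fun U _ => mem_range.2 (hlt U))]
  refine sum_congr rfl fun j hj => ?_
  have hdet : ∀ U, A.out a ((A.dp a M (A.T a)).getD (idx (A.run a U (A.T a)))
      (A.init a, ⟨0⟩)).1 = A.out a (A.run a U (A.T a)) := by
    intro U
    refine enc_lbin_inj (PT_det A.pt_out (a := (a, _)) (a' := (a, A.run a U (A.T a))) ?_)
    simp only [enc_pair, enc_eq_of_idx (h1 U)]
  rw [h2 j (mem_range.1 hj), sum_filter]
  split_ifs with h3
  · refine sum_congr rfl fun U _ => ?_
    split_ifs with h4 h5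
    · rfl
    · exact absurd (by rw [← hdet, h4, h3]) h5
    · rfl
  · refine (sum_eq_zero fun U _ => ?_).symm
    split_ifs with h4 h5
    · exact absurd (by rw [← h4, hdet, h5]) h3
    · rfl
    · rfl

end Stream

end

end Crest.Agent.R309X
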