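import Crest.Agent.R309X.LV

/-!
Row 309: a first trial followed by independent repetitions of a second kind of trial.
-/

set_option autoImplicit false

namespace Crest.Agent.R309X

open Crest.Agent.PT Crest.Agent.QC Crest.Agent.R317 Crest.Agent.ORAM Crest.WordRAM Finset

/-- word length and input words -/
abbrev Ctx : Type := ℕ × List Bin

/-- context, phase, bits drawn in the current trial -/
abbrev TSt : Type := Ctx × Bool × Raw

/-- The two-phase round machine. -/
noncomputable def two (len : Ctx × Bool → ℕ) (res : TSt → Bool × List Bin) (hlen : BT len)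
    (hres : PT res) : Rnd TSt where
  init g := (g, false, Raw.nil)
  act s := if sz s.2.2 = len (s.1, s.2.1) ∧ (res s).1 = true then 0 else 1
  qry _ := []
  upd p := if sz p.1.2.2 < len (p.1.1, p.1.2.1) then
      (p.1.1, p.1.2.1, p.1.2.2.app (Raw.cons p.2.bodd Raw.nil))
    else (p.1.1, true, Raw.cons p.2.bodd Raw.nil)
  out s := (res s).2
  pt_init := by fun_prop
  pt_act := by fun_prop
  pt_qry := by fun_prop
  pt_upd := by fun_prop
  pt_out := by fun_prop

section

variable {len : Ctx × Bool → ℕ} {res : TSt → Bool × List Bin} {hlen : BT len} {hres : PT res}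

theorem two_act (g : Ctx) (f : Bool) (l : List Bool) :
    (two len res hlen hres).act (g, f, ⟨l⟩) =
      if l.length = len (g, f) ∧ (res (g, f, ⟨l⟩)).1 = true then 0 else 1 := rfl

theorem two_01 (s : TSt) : (two len res hlen hres).act s = 0 ∨ (two len res hlen hres).act s = 1 := by
  obtain ⟨g, f, ⟨l⟩⟩ := s
  rw [two_act]
  split_ifs <;> simp

theorem two_nx (g : Ctx) (f : Bool) (l : List Bool) (b : Bool)
    (h : (two len res hlen hres).act (g, f, ⟨l⟩) ≠ 0) :
    nx (two len res hlen hres) (g, f, ⟨l⟩) b =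
      if l.length < len (g, f) then (g, f, ⟨l ++ [b]⟩) else (g, true, ⟨[b]⟩) := by
  rw [nx, if_neg h]
  cases b <;> simp [two, Raw.app, Raw.cons, Raw.nil, Bin.bodd]

/-- Probability that a trial fails. -/
noncomputable def pFail (len : Ctx × Bool → ℕ) (res : TSt → Bool × List Bin) (g : Ctx) (f : Bool) :
    ℝ := EL (len (g, f)) fun l => if (res (g, f, ⟨l⟩)).1 = true then 0 else 1

/-- Probability that a trial succeeds with the output `o`. -/
noncomputable def pOut (len : Ctx × Bool → ℕ) (res : TSt → Bool × List Bin) (g : Ctx) (f : Bool)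
    (o : List ℕ) : ℝ :=
  EL (len (g, f)) fun l => if (res (g, f, ⟨l⟩)).1 = true ∧ (res (g, f, ⟨l⟩)).2.map Bin.val = o
    then 1 else 0

theorem two_main {P : Program} {c : ℕ} (hS : SimOK (two len res hlen hres) P c) {w : ℕ}
    (hw : 1 ≤ w) (x : List ℕ) (g : Ctx) (hg : g = (w, x.map fun v => ⟨v % 2 ^ w⟩))
    (Q : Bool → ℕ) (hQ : ∀ f, (2 * sz g + len (g, f) + w + x.length + 6) ^ c ≤ Q f)
    (hQw : ∀ f, Q f < 2 ^ w) (hT : 1 ≤ len (g, true))
    (ho : ∀ f l, l.length = len (g, f) → (res (g, f, ⟨l⟩)).1 = true →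
      ∀ v ∈ (res (g, f, ⟨l⟩)).2, v.val < 2 ^ w)
    (hp : pFail len res g true < 1) :
    expectedTime P w x ≤ ENNReal.ofReal (Q false * (len (g, false) + 1) +
      pFail len res g false * (Q true * len (g, true) / (1 - pFail len res g true))) ∧
    (∀ ρ T out, HaltsWithin P w ρ x T out → ∃ f l, l.length = len (g, f) ∧
      (res (g, f, ⟨l⟩)).1 = true ∧ out = (res (g, f, ⟨l⟩)).2.map Bin.val) ∧
    ∀ o, probHaltsWith P w x (fun out => out = o) = pOut len res g false o +
      pFail len res g false * (pOut len res g true o / (1 - pFail len res g true)) := by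
  set A := two len res hlen hres with hA
  let Inv : TSt → Prop := fun s => ∃ f l, s = (g, f, ⟨l⟩) ∧ l.length ≤ len (g, f)
  have h0' : A.init (w, x.map fun v => ⟨v % 2 ^ w⟩) = (g, false, ⟨[]⟩) := by rw [hg]; rfl
  have h0 : Inv (A.init (w, x.map fun v => ⟨v % 2 ^ w⟩)) := by
    rw [h0']; exact ⟨false, [], rfl, Nat.zero_le _⟩
  have hI : ∀ s b, Inv s → Inv (nx A s b) := by
    rintro _ b ⟨f, l, rfl, hl⟩
    by_cases h : A.act (g, f, ⟨l⟩) = 0
    · rw [nx, if_pos h]; exact ⟨f, l, rfl, hl⟩
    · rw [hA, two_nx _ _ _ _ h]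
      split_ifs with h1
      · exact ⟨_, _, rfl, by simpa using h1⟩
      · exact ⟨_, _, rfl, by simpa using hT⟩
  have hq : ∀ s, Inv s → (sz s + w + x.length + 2) ^ c ≤ Q s.2.1 := by
    rintro _ ⟨f, l, rfl, hl⟩
    refine le_trans (Nat.pow_le_pow_left ?_ _) (hQ f)
    simp only [sz_pair, sz_bool, sz_raw]
    omega
  have hc : ∀ s, Inv s → (sz s + w + x.length + 2) ^ c < 2 ^ w :=
    fun s hs => (hq s hs).trans_lt (hQw _)
  have hact : ∀ f l, A.act (g, f, ⟨l⟩) = 0 ↔
      l.length = len (g, f) ∧ (res (g, f, ⟨l⟩)).1 = true := by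
    intro f l
    rw [hA, two_act]
    split_ifs with h <;> simp [h]
  have ho' : ∀ s, Inv s → A.act s = 0 → ∀ v ∈ A.out s, v.val < 2 ^ w := by
    rintro _ ⟨f, l, rfl, hl⟩ h
    exact ho f l ((hact f l).1 h).1 ((hact f l).1 h).2
  have h1p : 0 < 1 - pFail len res g true := by linarith
  set W : ℝ := Q true * len (g, true) / (1 - pFail len res g true) with hW
  have hW0 : 0 ≤ W := by positivity
  let V : TSt → ℝ := fun s => Q s.2.1 * ((len (g, s.2.1) - s.2.2.val.length : ℕ) + 1) +
    EL (len (g, s.2.1) - s.2.2.val.length)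
      (fun l => if (res (g, s.2.1, ⟨s.2.2.val ++ l⟩)).1 = true then 0 else 1) * W
  have hV0 : ∀ s, Inv s → (((sz s + w + x.length + 2) ^ c : ℕ) : ℝ) ≤ V s := by
    intro s hs
    have h1 : (((sz s + w + x.length + 2) ^ c : ℕ) : ℝ) ≤ Q s.2.1 := by exact_mod_cast hq s hs
    have h2 : 0 ≤ EL (len (g, s.2.1) - s.2.2.val.length)
      (fun l => if (res (g, s.2.1, ⟨s.2.2.val ++ l⟩)).1 = true then (0 : ℝ) else 1) :=
      EL_nonneg fun l _ => by split_ifs <;> norm_num
    have h3 : (0 : ℝ) ≤ Q s.2.1 * (len (g, s.2.1) - s.2.2.val.length : ℕ) := by positivity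
    have h4 := mul_nonneg h2 hW0
    simp only [V]
    nlinarith
  have hstep : ∀ (F : Bool → List Bool → ℝ) (f : Bool) (l : List Bool), l.length < len (g, f) →
      EL (len (g, f) - l.length) (fun l' => F f (l ++ l')) =
        (EL (len (g, f) - (l ++ [false]).length) (fun l' => F f (l ++ [false] ++ l')) +
          EL (len (g, f) - (l ++ [true]).length) (fun l' => F f (l ++ [true] ++ l'))) / 2 := by
    intro F f l hl
    rw [show len (g, f) - l.length = (len (g, f) - (l.length + 1)) + 1 by omega, EL_succ]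
    simp
  have hV : ∀ s, Inv s → A.act s ≠ 0 →
      ((sz s + w + x.length + 2) ^ c : ℕ) + (V (nx A s false) + V (nx A s true)) / 2 ≤ V s := by
    rintro _ ⟨f, l, rfl, hl⟩ h
    have h1 : (((sz (g, f, (⟨l⟩ : Raw)) + w + x.length + 2) ^ c : ℕ) : ℝ) ≤ Q f := by
      exact_mod_cast hq _ ⟨f, l, rfl, hl⟩
    generalize (((sz (g, f, (⟨l⟩ : Raw)) + w + x.length + 2) ^ c : ℕ) : ℝ) = qq at h1 ⊢
    rw [hA, two_nx _ _ _ _ h, two_nx _ _ _ _ h]
    by_cases hlt : l.length < len (g, f)
    · rw [if_pos hlt, if_pos hlt]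
      simp only [V]
      rw [hstep (fun f l => if (res (g, f, ⟨l⟩)).1 = true then 0 else 1) f l hlt]
      simp only [List.length_append, List.length_singleton]
      rw [show len (g, f) - l.length = (len (g, f) - (l.length + 1)) + 1 by omega]
      push_cast
      linarith
    · rw [if_neg hlt, if_neg hlt]
      have hl' : l.length = len (g, f) := by omega
      have hr : ¬ (res (g, f, ⟨l⟩)).1 = true := fun hr => h ((hact f l).2 ⟨hl', hr⟩)
      have h2 := hstep (fun f l => if (res (g, f, ⟨l⟩)).1 = true then 0 else 1) true [] hT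
      simp only [List.nil_append, List.length_nil, Nat.sub_zero] at h2
      have h3 : W = Q true * len (g, true) + pFail len res g true * W := by
        rw [hW]; field_simp; ring
      simp only [V, hl', Nat.sub_self, EL_zero, List.append_nil, if_neg hr]
      unfold pFail at h3
      rw [h2] at h3
      simp only [List.length_singleton] at h3 ⊢
      rw [Nat.cast_sub hT]
      push_cast
      linarith
  refine ⟨?_, fun ρ T out h => ?_, fun o => ?_⟩
  · have := lv_time hS two_01 h0 hI hc ho' hw V hV0 hV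
    rw [h0'] at this
    simpa [V, pFail] using this
  · obtain ⟨_, ⟨f, l, rfl, -⟩, h1, h2⟩ := lv_out hS two_01 h0 hI hc ho' ρ T out h
    exact ⟨f, l, ((hact f l).1 h1).1, ((hact f l).1 h1).2, h2⟩
  · set hT' : ℝ := pOut len res g true o / (1 - pFail len res g true) with hhT
    have hp0 : 0 ≤ pOut len res g true o := EL_nonneg fun l _ => by split_ifs <;> norm_num
    have hp1 : pOut len res g true o ≤ 1 - pFail len res g true := by
      rw [← EL_const (len (g, true)) 1, pFail, ← EL_sub]
      refine EL_mono fun l _ => ?_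
      by_cases h1 : (res (g, true, ⟨l⟩)).1 = true <;>
        by_cases h2 : (res (g, true, ⟨l⟩)).2.map Bin.val = o <;> simp [h1, h2]
    have hT0 : 0 ≤ hT' := by positivity
    have hT1 : hT' ≤ 1 := by rw [hhT, div_le_one h1p]; exact hp1
    let H : Bool → List Bool → ℝ := fun f l => if (res (g, f, ⟨l⟩)).1 = true then
      (if (res (g, f, ⟨l⟩)).2.map Bin.val = o then 1 else 0) else hT'
    have hH : ∀ f, EL (len (g, f)) (H f) = pOut len res g f o + pFail len res g f * hT' := by
      intro f
      rw [pOut, pFail, mul_comm, ← EL_mul, ← EL_add]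
      refine EL_congr fun l _ => ?_
      by_cases h1 : (res (g, f, ⟨l⟩)).1 = true <;>
        by_cases h2 : (res (g, f, ⟨l⟩)).2.map Bin.val = o <;> simp [H, h1, h2]
    let h : TSt → ℝ := fun s => EL (len (g, s.2.1) - s.2.2.val.length)
      (fun l => H s.2.1 (s.2.2.val ++ l))
    have := lv_prob hS two_01 h0 hI hc ho' hw V hV0 hV o h ?_ ?_ ?_
    · rw [this, h0', ← hH]
      simp [h]
    · intro s _
      refine ⟨EL_nonneg fun l _ => ?_, EL_le fun l _ => ?_⟩ <;> simp only [H] <;>
        split_ifs <;> first | assumption | norm_num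
    · rintro _ ⟨f, l, rfl, -⟩ ha
      obtain ⟨h1, h2⟩ := (hact f l).1 ha
      simp only [h, h1, Nat.sub_self, EL_zero, List.append_nil, H, if_pos h2]
      rfl
    · rintro _ ⟨f, l, rfl, hl⟩ ha
      rw [two_nx _ _ _ _ ha, two_nx _ _ _ _ ha]
      by_cases hlt : l.length < len (g, f)
      · rw [if_pos hlt, if_pos hlt]
        exact hstep H f l hlt
      · rw [if_neg hlt, if_neg hlt]
        have hl' : l.length = len (g, f) := by omega
        have hr : ¬ (res (g, f, ⟨l⟩)).1 = true := fun hr => ha ((hact f l).2 ⟨hl', hr⟩)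
        have h2 := hstep H true [] hT
        simp only [List.nil_append, List.length_nil, Nat.sub_zero] at h2
        simp only [h]
        rw [← h2, hH]
        simp only [hl', Nat.sub_self, EL_zero, List.append_nil, H, if_neg hr]
        rw [hhT]; field_simp; ring

end

end Crest.Agent.R309X
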